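import Crest.Agent.N49.Km.Rem

/-!
# Row 49 (helper70): the pieces of the relative Kelley–Meka step
-/

set_option autoImplicit false
open Finset

namespace Crest.Agent.N49.Km
open L

variable (G : Type) [AddCommGroup G] [Fintype G]

/-- the kernel `f (a + b)` -/
def ak {G : Type} [Add G] (f : G → ℝ) (a b : G) : ℝ := f (a + b)

/-- steps (1), (2): an ambient dense set of directions -/
def ST12 : Prop := ∀ (my mb g ν : G → ℝ) (P j Q : ℕ) (γ τ : ℝ), Pr my → Pr mb → (∀ x, 0 ≤ ν x) →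
  (∀ x, 0 ≤ g x) → (∀ x, g x ≤ 2 ^ P * ν x) → 3 ≤ j → 2 ^ j ≤ Q → Q ≤ P → 1 / 2 ^ P ≤ γ →
  γ ≤ 2 ^ P → γ ^ (Q * Q) ≤ GC my mb (ak g) Q Q → LF my mb (ak ν) (P ^ 7) τ →
  τ ≤ 1 / 2 ^ P ^ 28 →
    ∃ B : G → ℝ, (∀ x, 0 ≤ B x) ∧ (∀ x, B x ≤ 2 ^ P ^ 4) ∧ Ex mb B = 1 ∧
      2 * ((1 - 1 / 2 ^ j) * γ) ^ P ^ 6 / 2 ^ P ^ 4 ≤
        Ex my fun y => Ex mb (fun x => B x * g (y + x)) ^ P ^ 6

open Classical in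
/-- step (3): sifting and densification -/
def ST3 : Prop := ∀ (my mb ma mv mt g ν B : G → ℝ) (P j : ℕ) (γ τ : ℝ), Pr my → Pr mb → Pr ma →
  Pr mv → Pr mt → (∀ y, my y ≤ 2 * Ex mv fun v => ma (y + v)) →
  (∀ v t, mv v ≠ 0 → mb (t + v) ≤ 4 * mt t) → (∀ x, 0 ≤ ν x) → (∀ x, 0 ≤ g x) →
  (∀ x, g x ≤ 2 ^ P * ν x) → 3 ≤ j → 2 ^ j ≤ P → 1 / 2 ^ (P + 1) ≤ γ → (∀ x, 0 ≤ B x) →
  (∀ x, B x ≤ 2 ^ P ^ 4) → LF ma mt (ak ν) (P ^ 7) τ → τ ≤ 1 / 2 ^ P ^ 28 →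
  (2 * γ ^ P ^ 6 / 2 ^ P ^ 4 ≤ Ex my fun y => Ex mb (fun x => B x * g (y + x)) ^ P ^ 6) →
    ∃ a v : G → ℝ, Pr a ∧ Pr v ∧ (∀ x, a x ≤ 2 ^ P ^ 15 * ma x) ∧ (∀ x, v x ≤ 2 ^ P ^ 15 * mv x) ∧
      1 - 8 / 2 ^ j ≤ Ex a fun y => Ex v fun z =>
        if (1 - 1 / 2 ^ j) * γ ≤ Ex mb fun x => B x * g (y - z + x) then 1 else 0

/-- the law of `u - v + x` -/
def cv {G : Type} [AddCommGroup G] [Fintype G] (ma mv mb : G → ℝ) (p : G) : ℝ :=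
  Ex mv fun v => Ex mb fun x => ma (p + v - x)

end Crest.Agent.N49.Km
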