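import Crest.Agent.N49.Lo.Cs
import Crest.Agent.N49.Km.Defs

/-!
# Row 49 (helper63): relative sifting (step (3) of `KM_rel`)
-/

set_option autoImplicit false

open Finset

namespace Crest.Agent.N49.Km

namespace K3

open Lo Lo.Csa

/-- removing the sparse weight against a power of an average -/
theorem drop {T U V : Type*} [Fintype T] [Fintype U] [Fintype V] {τ : T → ℝ} {ma : U → ℝ}
    {mv : V → ℝ} (hτ : ∀ t, 0 ≤ τ t) (hv : Pr mv) {a : T → V → ℝ} {A ρ : ℝ}
    (a0 : ∀ t v, 0 ≤ a t v) (aA : ∀ t v, a t v ≤ A * mv v) (hA : 0 ≤ A) {s : U → V → ℝ}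
    (hs : ∀ u v, |s u v| ≤ 1) {N : T → U → ℝ}
    (hD : ∀ ψ : U → ℝ, (∀ u, |ψ u| ≤ 1) → ∑ t, τ t * |∑ u, ma u * (N t u - 1) * ψ u| ≤ ρ)
    (r : ℕ) : ∑ t, τ t * ∑ u, ma u * (N t u - 1) * (∑ v, a t v * s u v) ^ r ≤ A ^ r * ρ := by
  have e : ∀ t, ∑ u, ma u * (N t u - 1) * (∑ v, a t v * s u v) ^ r =
      ∑ w : Fin r → V, pw (a t) w * ∑ u, ma u * (N t u - 1) * ∏ i, s u (w i) := fun t => by
    simp_rw [Fintype.sum_pow, mul_sum]
    rw [sum_comm]
    refine sum_congr rfl fun w _ => sum_congr rfl fun u _ => ?_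
    rw [prod_mul_distrib, pw]; ring
  calc ∑ t, τ t * ∑ u, ma u * (N t u - 1) * (∑ v, a t v * s u v) ^ r
      ≤ ∑ t, τ t * ∑ w : Fin r → V, A ^ r * pw mv w *
          |∑ u, ma u * (N t u - 1) * ∏ i, s u (w i)| := by
        refine sum_le_sum fun t _ => mul_le_mul_of_nonneg_left ?_ (hτ t)
        rw [e]
        refine sum_le_sum fun w _ => ?_
        have h0 : 0 ≤ pw (a t) w := prod_nonneg fun i _ => a0 _ _
        have h1 : pw (a t) w ≤ A ^ r * pw mv w := by
          have : pw (a t) w ≤ ∏ i, A * mv (w i) :=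
            prod_le_prod (fun i _ => a0 _ _) fun i _ => aA _ _
          rwa [prod_mul_distrib, prod_const, card_univ, Fintype.card_fin] at this
        exact (mul_le_mul_of_nonneg_left (le_abs_self _) h0).trans
          (mul_le_mul_of_nonneg_right h1 (abs_nonneg _))
    _ = A ^ r * ∑ w : Fin r → V, pw mv w *
          ∑ t, τ t * |∑ u, ma u * (N t u - 1) * ∏ i, s u (w i)| := by
        simp_rw [mul_sum]
        rw [sum_comm]
        refine sum_congr rfl fun w _ => sum_congr rfl fun t _ => by ring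
    _ ≤ A ^ r * ρ := by
        refine mul_le_mul_of_nonneg_left ((pr_pw hv r).le fun w => hD _ fun u => ?_) (by positivity)
        rw [abs_prod]
        exact prod_le_one (fun i _ => abs_nonneg _) fun i _ => hs _ _

theorem pow_ge {h e : ℝ} (he : 0 < e) (he1 : e ≤ 1) (h0 : 0 ≤ h) (h1 : h ≤ 1) (r : ℕ) :
    (1 - e) ^ r * (1 - (1 - h) / e) ≤ h ^ r := by
  have p0 : 0 ≤ (1 - e) ^ r := pow_nonneg (by linarith) r
  by_cases c : 1 - e ≤ h
  · have : 0 ≤ (1 - h) / e := div_nonneg (by linarith) he.le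
    have h2 : (1 - e) ^ r ≤ h ^ r := pow_le_pow_left₀ (by linarith) c r
    nlinarith
  · have : 1 ≤ (1 - h) / e := by rw [le_div_iff₀ he]; linarith
    have h2 : 0 ≤ h ^ r := pow_nonneg h0 r
    nlinarith

/-- a dense level set -/
theorem level {U : Type*} [Fintype U] {ma h : U → ℝ} (ha : Pr ma) (h0 : ∀ u, 0 ≤ h u)
    (h1 : ∀ u, h u ≤ 1) {c δ : ℝ} (c0 : 0 ≤ c) (hδ : 0 < δ) {r : ℕ}
    (H : δ + c ^ r ≤ ∑ u, ma u * h u ^ r) :
    ∃ b : U → ℝ, Pr b ∧ (∀ u, δ * b u ≤ ma u) ∧ c ≤ ∑ u, b u * h u := by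
  set m := ∑ u, ma u * (if c ≤ h u then (1 : ℝ) else 0) with hm
  have k : δ ≤ m := by
    have : ∑ u, ma u * h u ^ r ≤ ∑ u, ma u * ((if c ≤ h u then (1 : ℝ) else 0) + c ^ r) := by
      refine sum_le_sum fun u _ => mul_le_mul_of_nonneg_left ?_ (ha.1 u)
      split_ifs with q
      · have := pow_le_one₀ (h0 u) (h1 u) (n := r)
        have := pow_nonneg c0 r
        linarith
      · have := pow_le_pow_left₀ (h0 u) (not_le.1 q).le r
        linarith
    simp_rw [mul_add, sum_add_distrib, ha.const] at this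
    linarith
  have m0 : 0 < m := hδ.trans_le k
  have pb : Pr fun u => ma u * (if c ≤ h u then (1 : ℝ) else 0) / m :=
    ⟨fun u => div_nonneg (mul_nonneg (ha.1 u) (by split_ifs <;> norm_num)) m0.le,
      by rw [← sum_div, ← hm, div_self m0.ne']⟩
  refine ⟨_, pb, fun u => ?_, ?_⟩
  · rw [← mul_div_assoc, div_le_iff₀ m0]
    have := ha.1 u
    split_ifs <;> nlinarith
  · refine (pb.const c).symm.trans_le (sum_le_sum fun u _ => ?_)
    have := ha.1 u
    split_ifs with q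
    · exact mul_le_mul_of_nonneg_left q (by positivity)
    · simp

variable {G : Type} [AddCommGroup G] [Fintype G]

theorem expand (β g : G → ℝ) (p : ℕ) (u v : G) :
    (∑ x, β x * g (u - v + x)) ^ p =
      ∑ t : Fin p → G, (∏ i, β (t i + v)) * ∏ i, g (u + t i) := by
  rw [← sum_shift v fun x => β x * g (u - v + x), Fintype.sum_pow]
  refine sum_congr rfl fun t _ => ?_
  rw [← prod_mul_distrib]
  refine prod_congr rfl fun i _ => ?_
  congr 2; abel

/-- relative sifting -/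
theorem sift {my ma mv mt β g ν : G → ℝ} (ha : Pr ma) (hv : Pr mv) (ht : Pr mt) (hβ : ∀ x, 0 ≤ β x)
    {K L γ e ρ Λ : ℝ} {p r : ℕ} (hy : ∀ y, my y ≤ 2 * ∑ v, mv v * ma (y + v))
    (hb : ∀ t v, mv v ≠ 0 → β (t + v) ≤ K * mt t) (g0 : ∀ x, 0 ≤ g x)
    (ν0 : ∀ x, 0 ≤ ν x) (gν : ∀ x, g x ≤ L * ν x) (hK : 0 ≤ K) (hγ : 0 < γ) (Λ1 : 1 ≤ Λ)
    (hΛ : (K * L) ^ p ≤ Λ * γ ^ p) (he : 0 < e) (he2 : e ≤ 1 / 2) (hp : (1 - e) ^ p ≤ e / 8)
    (hr : 32 * Λ * (1 - e) ^ r ≤ 1) (hρ : (16 * Λ) ^ (r + 1) * ρ ≤ 1)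
    (hD : ∀ ψ : G → ℝ, (∀ u, |ψ u| ≤ 1) →
      ∑ t : Fin p → G, pw mt t * |∑ u, ma u * ((∏ i, ν (u + t i)) - 1) * ψ u| ≤ ρ)
    (hH : γ ^ p ≤ ∑ y, my y * (∑ x, β x * g (y + x)) ^ p) :
    ∃ a b : G → ℝ, Pr a ∧ Pr b ∧ (∀ u, a u ≤ 32 * Λ * 2 ^ r * ma u) ∧
      (∀ v, b v ≤ 8 * Λ * mv v) ∧
      1 - 2 * e ≤ T a b (fun y => if (1 - e) * γ ≤ ∑ x, β x * g (y + x) then 1 else 0) 0 := by
  classical
  set H : G → ℝ := fun y => ∑ x, β x * g (y + x) with hH'
  set s : G → G → ℝ := fun u v => if (1 - e) * γ ≤ H (u - v) then 1 else 0 with hs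
  set W : (Fin p → G) → G → ℝ := fun t v => mv v * ∏ i, β (t i + v) with hW
  set w : (Fin p → G) → G → ℝ := fun t u => ∏ i, g (u + t i) with hw
  set N : (Fin p → G) → G → ℝ := fun t u => ∏ i, ν (u + t i) with hN
  have τ := pr_pw ht p
  have Λ0 : 0 < Λ := by linarith
  have γp : 0 < γ ^ p := pow_pos hγ p
  have H0 : ∀ y, 0 ≤ H y := fun y => sum_nonneg fun x _ => mul_nonneg (hβ x) (g0 _)
  have s0 : ∀ u v, 0 ≤ s u v := fun u v => by simp only [hs]; split_ifs <;> norm_num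
  have s1 : ∀ u v, s u v ≤ 1 := fun u v => by simp only [hs]; split_ifs <;> norm_num
  have W0 : ∀ t v, 0 ≤ W t v := fun t v => mul_nonneg (hv.1 v) (prod_nonneg fun i _ => hβ _)
  have w0 : ∀ t u, 0 ≤ w t u := fun t u => prod_nonneg fun i _ => g0 _
  have N0 : ∀ t u, 0 ≤ N t u := fun t u => prod_nonneg fun i _ => ν0 _
  have WK : ∀ t v, W t v ≤ K ^ p * pw mt t * mv v := fun t v => by
    by_cases c : mv v = 0
    · simp [hW, c]
    · have : ∏ i, β (t i + v) ≤ ∏ i, K * mt (t i) :=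
        prod_le_prod (fun i _ => hβ _) fun i _ => hb _ _ c
      rw [prod_mul_distrib, prod_const, card_univ, Fintype.card_fin] at this
      rw [mul_comm _ (mv v)]
      exact mul_le_mul_of_nonneg_left this (hv.1 v)
  have wN : ∀ t u, w t u ≤ L ^ p * N t u := fun t u => by
    have : w t u ≤ ∏ i, L * ν (u + t i) := prod_le_prod (fun i _ => g0 _) fun i _ => gν _
    rwa [prod_mul_distrib, prod_const, card_univ, Fintype.card_fin] at this
  have ex : ∀ F : G → G → ℝ, ∑ u, ma u * ∑ v, mv v * (F u v * H (u - v) ^ p) =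
      ∑ t, ∑ u, ma u * w t u * ∑ v, W t v * F u v := fun F => by
    rw [sum_comm]
    refine sum_congr rfl fun u _ => ?_
    simp_rw [hH', expand, mul_sum]
    rw [sum_comm]
    refine sum_congr rfl fun t _ => sum_congr rfl fun v _ => ?_
    simp only [hW, hw]; ring
  -- the good shifts
  obtain ⟨n, a, n0, nK, pa, aA, na, nW⟩ : ∃ (n : (Fin p → G) → ℝ) (a : (Fin p → G) → G → ℝ),
      (∀ t, 0 ≤ n t) ∧ (∀ t, n t ≤ K ^ p * pw mt t) ∧ (∀ t, Pr (a t)) ∧
      (∀ t v, a t v ≤ 8 * Λ * mv v) ∧ (∀ t v, n t * a t v ≤ W t v) ∧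
      ∀ t, ∑ v, W t v ≤ n t + K ^ p * pw mt t / (8 * Λ) := by
    have k : ∀ t, ∃ (n : ℝ) (a : G → ℝ), 0 ≤ n ∧ n ≤ K ^ p * pw mt t ∧ Pr a ∧
        (∀ v, a v ≤ 8 * Λ * mv v) ∧ (∀ v, n * a v ≤ W t v) ∧
        ∑ v, W t v ≤ n + K ^ p * pw mt t / (8 * Λ) := fun t => by
      have z0 : 0 ≤ K ^ p * pw mt t := mul_nonneg (pow_nonneg hK p) (τ.1 t)
      by_cases c : K ^ p * pw mt t / (8 * Λ) < ∑ v, W t v
      · have z1 : 0 ≤ K ^ p * pw mt t / (8 * Λ) := by positivity
        have m0 : 0 < ∑ v, W t v := z1.trans_lt c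
        refine ⟨∑ v, W t v, fun v => W t v / ∑ v, W t v, m0.le, ?_,
          ⟨fun v => div_nonneg (W0 t v) m0.le, by rw [← sum_div, div_self m0.ne']⟩,
          fun v => ?_, fun v => by rw [mul_div_cancel₀ _ m0.ne'], by linarith⟩
        · refine (sum_le_sum fun v _ => WK t v).trans_eq ?_
          rw [← mul_sum, hv.2, mul_one]
        · rw [div_le_iff₀ m0]
          rw [div_lt_iff₀ (by positivity)] at c
          have := WK t v
          have := hv.1 v
          nlinarith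
      · refine ⟨0, mv, le_rfl, z0, hv, fun v => ?_, fun v => by simpa using W0 t v,
          by linarith [not_lt.1 c]⟩
        have := hv.1 v
        nlinarith
    choose n a h using k
    exact ⟨n, a, fun t => (h t).1, fun t => (h t).2.1, fun t => (h t).2.2.1,
      fun t => (h t).2.2.2.1, fun t => (h t).2.2.2.2.1, fun t => (h t).2.2.2.2.2⟩
  set h : (Fin p → G) → G → ℝ := fun t u => ∑ v, a t v * s u v with hh
  have h0 : ∀ t u, 0 ≤ h t u := fun t u => (pa t).ge fun v => s0 u v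
  have h1 : ∀ t u, h t u ≤ 1 := fun t u => (pa t).le fun v => s1 u v
  have ρ1 : ρ ≤ 1 := by
    by_contra c
    have : 1 ≤ (16 * Λ) ^ (r + 1) := one_le_pow₀ (by linarith)
    nlinarith [not_le.1 c]
  -- (i) the bad part
  have i1 : ∑ t, n t * ∑ u, ma u * w t u * (1 - h t u) ≤ e / 8 * γ ^ p := by
    calc _ ≤ ∑ t, ∑ u, ma u * w t u * ∑ v, W t v * (1 - s u v) := by
          refine sum_le_sum fun t _ => ?_
          rw [mul_sum]
          refine sum_le_sum fun u _ => ?_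
          rw [mul_left_comm]
          refine mul_le_mul_of_nonneg_left ?_ (mul_nonneg (ha.1 u) (w0 t u))
          have : 1 - h t u = ∑ v, a t v * (1 - s u v) := by
            simp only [hh, mul_sub, mul_one, sum_sub_distrib, (pa t).2]
          rw [this, mul_sum]
          refine sum_le_sum fun v _ => ?_
          rw [← mul_assoc]
          exact mul_le_mul_of_nonneg_right (na t v) (by linarith [s1 u v])
      _ = _ := (ex fun u v => 1 - s u v).symm
      _ ≤ ((1 - e) * γ) ^ p := by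
          refine ha.le fun u => hv.le fun v => ?_
          simp only [hs]
          split_ifs with c
          · have : 0 ≤ (1 - e) * γ := by nlinarith
            simpa using pow_nonneg this p
          · simpa using pow_le_pow_left₀ (H0 _) (not_le.1 c).le p
      _ ≤ _ := by rw [mul_pow]; exact mul_le_mul_of_nonneg_right hp γp.le
  -- (ii) the total
  have i2 : γ ^ p / 4 ≤ ∑ t, n t * ∑ u, ma u * w t u := by
    have j1 : γ ^ p ≤ 2 * ∑ t, ∑ u, ma u * w t u * ∑ v, W t v * 1 := by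
      rw [← ex fun _ _ => 1]
      refine hH.trans ?_
      calc _ ≤ ∑ y, (2 * ∑ v, mv v * ma (y + v)) * H y ^ p :=
            sum_le_sum fun y _ => mul_le_mul_of_nonneg_right (hy y) (pow_nonneg (H0 y) p)
        _ = _ := by
            simp_rw [mul_assoc, sum_mul, mul_sum]
            rw [sum_comm, sum_comm (f := fun u v => 2 * (ma u * (mv v * (1 * H (u - v) ^ p))))]
            refine sum_congr rfl fun v _ => ?_
            rw [← sum_shift v fun u => 2 * (ma u * (mv v * (1 * H (u - v) ^ p)))]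
            refine sum_congr rfl fun y _ => ?_
            rw [add_sub_cancel_right]; ring
    have j2 : ∑ t, pw mt t * ∑ u, ma u * N t u ≤ 2 := by
      have := hD (fun _ => 1) (fun _ => by simp)
      have k : ∑ t, pw mt t * ∑ u, ma u * N t u ≤
          ∑ t, pw mt t * (|∑ u, ma u * (N t u - 1) * 1| + 1) := by
        refine sum_le_sum fun t _ => mul_le_mul_of_nonneg_left ?_ (τ.1 t)
        have := le_abs_self (∑ u, ma u * (N t u - 1) * 1)
        simp only [mul_one, mul_sub, sum_sub_distrib, ha.2] at this ⊢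
        linarith
      simp_rw [mul_add, sum_add_distrib, τ.const] at k
      linarith
    have j3 : ∑ t, ∑ u, ma u * w t u * ∑ v, W t v * 1 ≤
        ∑ t, (n t * ∑ u, ma u * w t u + γ ^ p / 8 * (pw mt t * ∑ u, ma u * N t u)) := by
      refine sum_le_sum fun t _ => ?_
      rw [← sum_mul]
      simp only [mul_one]
      have q0 : 0 ≤ ∑ u, ma u * w t u := sum_nonneg fun u _ => mul_nonneg (ha.1 u) (w0 t u)
      have q1 : ∑ u, ma u * w t u ≤ L ^ p * ∑ u, ma u * N t u := by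
        rw [mul_sum]
        refine sum_le_sum fun u _ => ?_
        rw [mul_left_comm]
        exact mul_le_mul_of_nonneg_left (wN t u) (ha.1 u)
      have q2 : K ^ p * pw mt t / (8 * Λ) * ∑ u, ma u * w t u ≤
          γ ^ p / 8 * (pw mt t * ∑ u, ma u * N t u) := by
        have z0 : 0 ≤ K ^ p * pw mt t / (8 * Λ) :=
          div_nonneg (mul_nonneg (pow_nonneg hK p) (τ.1 t)) (by positivity)
        refine (mul_le_mul_of_nonneg_left q1 z0).trans ?_
        have z1 : 0 ≤ pw mt t * ∑ u, ma u * N t u :=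
          mul_nonneg (τ.1 t) (sum_nonneg fun u _ => mul_nonneg (ha.1 u) (N0 t u))
        have z2 : (K * L) ^ p / (8 * Λ) ≤ γ ^ p / 8 := by
          rw [div_le_div_iff₀ (by positivity) (by norm_num)]; nlinarith
        refine le_trans (le_of_eq ?_) (mul_le_mul_of_nonneg_right z2 z1)
        rw [mul_pow]; ring
      nlinarith [mul_le_mul_of_nonneg_left (nW t) q0]
    rw [sum_add_distrib, ← mul_sum] at j3
    nlinarith
  have e0 : 0 < 1 - e := by linarith
  have er : 0 < (1 - e) ^ r := pow_pos e0 r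
  -- (iii) the moment
  have i3 : (1 - e) ^ r * (γ ^ p / 8) ≤ ∑ t, n t * ∑ u, ma u * w t u * h t u ^ r := by
    have k : ∑ t, n t * ∑ u, ma u * w t u * ((1 - e) ^ r * (1 - (1 - h t u) / e)) =
        (1 - e) ^ r * (∑ t, n t * ∑ u, ma u * w t u -
          (∑ t, n t * ∑ u, ma u * w t u * (1 - h t u)) / e) := by
      simp_rw [mul_sub ((1 - e) ^ r), sum_div, mul_sum, sum_div, mul_sum, ← sum_sub_distrib]
      refine sum_congr rfl fun t _ => sum_congr rfl fun u _ => by ring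
    have k2 : (∑ t, n t * ∑ u, ma u * w t u * (1 - h t u)) / e ≤ γ ^ p / 8 := by
      rw [div_le_iff₀ he]; linarith
    refine le_trans (le_trans (mul_le_mul_of_nonneg_left (by linarith) er.le) k.ge) ?_
    refine sum_le_sum fun t _ => mul_le_mul_of_nonneg_left (sum_le_sum fun u _ => ?_) (n0 t)
    exact mul_le_mul_of_nonneg_left (pow_ge he (by linarith) (h0 t u) (h1 t u) r)
      (mul_nonneg (ha.1 u) (w0 t u))
  have i4 : (1 - e) ^ r / (8 * Λ) ≤ ∑ t, pw mt t * ∑ u, ma u * N t u * h t u ^ r := by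
    have k : ∑ t, n t * ∑ u, ma u * w t u * h t u ^ r ≤
        Λ * γ ^ p * ∑ t, pw mt t * ∑ u, ma u * N t u * h t u ^ r := by
      rw [mul_sum]
      refine sum_le_sum fun t _ => ?_
      have q1 : ∑ u, ma u * w t u * h t u ^ r ≤ L ^ p * ∑ u, ma u * N t u * h t u ^ r := by
        rw [mul_sum]
        refine sum_le_sum fun u _ => ?_
        have := mul_le_mul_of_nonneg_left (wN t u) (mul_nonneg (ha.1 u) (pow_nonneg (h0 t u) r))
        linarith
      have q0 : 0 ≤ ∑ u, ma u * w t u * h t u ^ r := sum_nonneg fun u _ =>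
        mul_nonneg (mul_nonneg (ha.1 u) (w0 t u)) (pow_nonneg (h0 t u) r)
      have z1 : 0 ≤ pw mt t * ∑ u, ma u * N t u * h t u ^ r := mul_nonneg (τ.1 t)
        (sum_nonneg fun u _ => mul_nonneg (mul_nonneg (ha.1 u) (N0 t u)) (pow_nonneg (h0 t u) r))
      refine (mul_le_mul (nK t) q1 q0 ((n0 t).trans (nK t))).trans ?_
      refine le_trans (le_of_eq ?_) (mul_le_mul_of_nonneg_right hΛ z1)
      rw [mul_pow]; ring
    rw [div_le_iff₀ (by positivity)]
    refine le_of_mul_le_mul_right ?_ γp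
    linarith
  have i5 := drop τ.1 hv (fun t => (pa t).1) aA (by positivity)
    (s := s) (fun u v => by rw [abs_of_nonneg (s0 u v)]; exact s1 u v) hD r
  have i6 : (8 * Λ) ^ r * ρ ≤ (1 - e) ^ r / (16 * Λ) := by
    have a1 : (1 / 2 : ℝ) ^ r ≤ (1 - e) ^ r := pow_le_pow_left₀ (by norm_num) (by linarith) r
    have a2 : (8 * Λ) ^ r = (1 / 2) ^ r * (16 * Λ) ^ r := by rw [← mul_pow]; ring_nf
    have a3 : 0 < (1 / 2 : ℝ) ^ r := by positivity
    rw [le_div_iff₀ (by positivity), a2]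
    rw [pow_succ] at hρ
    nlinarith
  have i7 : (1 - e) ^ r / (16 * Λ) ≤ ∑ t, pw mt t * ∑ u, ma u * h t u ^ r := by
    have k : ∑ t, pw mt t * ∑ u, ma u * h t u ^ r = ∑ t, pw mt t * ∑ u, ma u * N t u * h t u ^ r -
        ∑ t, pw mt t * ∑ u, ma u * (N t u - 1) * h t u ^ r := by
      simp_rw [mul_sum, ← sum_sub_distrib]
      refine sum_congr rfl fun t _ => sum_congr rfl fun u _ => by ring
    have : (1 - e) ^ r / (8 * Λ) = 2 * ((1 - e) ^ r / (16 * Λ)) := by field_simp; ring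
    rw [k]; linarith
  obtain ⟨t, k⟩ := τ.exists_ge fun t => ∑ u, ma u * h t u ^ r
  have i8 : (1 - e) ^ r / (32 * Λ) + (1 - 2 * e) ^ r ≤ ∑ u, ma u * h t u ^ r := by
    have a1 : (1 - 2 * e) ^ r ≤ ((1 - e) * (1 - e)) ^ r :=
      pow_le_pow_left₀ (by linarith) (by nlinarith) r
    have a2 : (1 - e) ^ r * (1 - e) ^ r ≤ (1 - e) ^ r / (32 * Λ) := by
      rw [le_div_iff₀ (by positivity)]; nlinarith
    have : (1 - e) ^ r / (16 * Λ) = 2 * ((1 - e) ^ r / (32 * Λ)) := by field_simp; ring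
    rw [mul_pow] at a1
    linarith
  obtain ⟨b, pb, bm, q⟩ := level ha (h0 t) (h1 t) (by linarith) (by positivity) i8
  refine ⟨b, a t, pb, pa t, fun u => ?_, aA t, q.trans_eq ?_⟩
  · have a1 : (1 / 2 : ℝ) ^ r ≤ (1 - e) ^ r := pow_le_pow_left₀ (by norm_num) (by linarith) r
    have a2 : 1 / 2 ^ r / (32 * Λ) * b u ≤ ma u := by
      refine le_trans (mul_le_mul_of_nonneg_right ?_ (pb.1 u)) (bm u)
      rw [← one_div_pow]; gcongr
    rw [div_div, one_div, inv_mul_le_iff₀ (by positivity)] at a2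
    linarith
  · simp only [T, hh, hs, mul_sum]
    rw [sum_comm]
    refine sum_congr rfl fun v _ => sum_congr rfl fun u _ => ?_
    rw [show (0 : G) - v + u = u - v by abel]; ring

theorem half {j P n m : ℕ} (hj : 2 ^ j ≤ P) (h : 2 * P * n ≤ m) :
    (1 - 1 / 2 ^ (j + 1) : ℝ) ^ m ≤ 1 / 2 ^ n := by
  have e0 : (0 : ℝ) < 1 / 2 ^ (j + 1) := by positivity
  have e1 : (1 / 2 ^ (j + 1) : ℝ) ≤ 1 := by
    rw [div_le_one (by positivity)]; exact one_le_pow₀ (by norm_num)
  have a : (1 - 1 / 2 ^ (j + 1) : ℝ) ^ 2 ^ (j + 1) ≤ 1 / 2 := by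
    have b : (1 - 1 / 2 ^ (j + 1) : ℝ) ≤ Real.exp (-(1 / 2 ^ (j + 1))) := by
      linarith [Real.add_one_le_exp (-(1 / 2 ^ (j + 1) : ℝ))]
    refine (pow_le_pow_left₀ (by linarith) b _).trans ?_
    rw [← Real.exp_nat_mul]
    have : ((2 ^ (j + 1) : ℕ) : ℝ) * -(1 / 2 ^ (j + 1)) = -1 := by push_cast; field_simp
    rw [this, Real.exp_neg, ← one_div]
    exact one_div_le_one_div_of_le (by norm_num) (by linarith [Real.add_one_le_exp (1 : ℝ)])
  have c : 2 ^ (j + 1) * n ≤ m := le_trans (Nat.mul_le_mul_right n (by omega)) h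
  refine (pow_le_pow_of_le_one (by linarith) (by linarith) c).trans ?_
  have z : (0 : ℝ) ≤ (1 - 1 / 2 ^ (j + 1)) ^ 2 ^ (j + 1) := pow_nonneg (sub_nonneg.2 e1) _
  rw [pow_mul]
  exact (pow_le_pow_left₀ z a n).trans_eq (one_div_pow _ _)

theorem den {ma mt ν : G → ℝ} (ha : L.Pr ma) (ht : L.Pr mt) (ν0 : ∀ x, 0 ≤ ν x) {n N : ℕ}
    {τ δ : ℝ} (h : LF ma mt (ak ν) N τ) (hN : 2 * (n + 0 + 1) ≤ N) (δ0 : 0 < δ)
    (hτ : 2 * τ ≤ δ ^ 4) (ψ : G → ℝ) (hψ : ∀ u, |ψ u| ≤ 1) :
    ∑ t : Fin n → G, pw mt t * |∑ u, ma u * ((∏ i, ν (u + t i)) - 1) * ψ u| ≤ n * δ := by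
  set D : (Fin n → G) → ℝ := fun t => ∑ u, ma u * ((∏ i, ν (u + t i)) - 1) * ψ u with hD
  have hw : L.Pr fun _ : Unit => (1 : ℝ) := ⟨fun _ => zero_le_one, by simp⟩
  have k := rem (r := 0) (K := 1) ha ht hw (ν := ak ν) (fun _ _ => ν0 _) h hN
    (Γ := fun y _ => ψ y) (fun y y' => by
      rw [hw.const, pow_zero, abs_mul]
      exact mul_le_one₀ (hψ y) (abs_nonneg _) (hψ y'))
    (B := fun t _ => if 0 ≤ D t then 1 else -1) (fun t _ => by split_ifs <;> simp)
    zero_le_one δ0 hτ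
  simp only [hw.const, one_mul] at k
  rw [← sub_le_iff_le_add', ← L.Ex_sub] at k
  refine le_trans (le_of_eq (sum_congr rfl fun t _ => ?_)) k
  congr 1
  have : D t = (L.Ex ma fun y => (∏ j, ak ν y (t j)) * ψ y) - L.Ex ma ψ := by
    rw [← L.Ex_sub]
    exact sum_congr rfl fun u _ => by simp only [ak]; ring
  beta_reduce
  rw [← mul_sub, ← this]
  change |D t| = _
  split_ifs with c
  · rw [one_mul]; exact abs_of_nonneg c
  · rw [neg_one_mul]; exact abs_of_neg (not_le.1 c)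

theorem tw {a b : ℕ} (h : a ≤ b) : (2 : ℝ) ^ a ≤ 2 ^ b := pow_le_pow_right₀ (by norm_num) h

theorem pl {P a b c : ℕ} (hP : 8 ≤ P) (h : a < b) (hc : c ≤ 8) : c * P ^ a ≤ P ^ b :=
  calc c * P ^ a ≤ P * P ^ a := Nat.mul_le_mul_right _ (hc.trans hP)
    _ = P ^ (a + 1) := by ring
    _ ≤ P ^ b := Nat.pow_le_pow_right (by omega) h

end K3

open K3 in
theorem st3 (G : Type) [AddCommGroup G] [Fintype G] : ST3 G := by
  intro my mb ma mv mt g ν B P j γ τ hy hb ha hv ht h1 h2 ν0 g0 gν hj hP hγ B0 B1 hL hτ hH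
  have P8 : 8 ≤ P := le_trans (Nat.pow_le_pow_right (n := 2) (by norm_num) hj) hP
  have jP : j < P := lt_of_lt_of_le Nat.lt_two_pow_self hP
  have p1 : ∀ a, 1 ≤ P ^ a := fun a => Nat.one_le_pow _ _ (by omega)
  set e : ℝ := 1 / 2 ^ (j + 1) with he
  have e0 : 0 < e := by positivity
  have e2 : e ≤ 1 / 2 := one_div_le_one_div_of_le (by norm_num) (by simpa using tw (a := 1) (by omega))
  have ej : (1 / 2 ^ j : ℝ) = 2 * e := by rw [he, pow_succ]; field_simp
  have γ0 : 0 < γ := lt_of_lt_of_le (by positivity) hγ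
  have a6 : (1 - e) ^ P ^ 6 ≤ 1 / 2 ^ P ^ 4 := half hP (by
    have := pl (a := 5) (b := 6) (c := 2) P8 (by norm_num) (by norm_num)
    calc 2 * P * P ^ 4 = 2 * P ^ 5 := by ring
      _ ≤ _ := this)
  have q14 := pl (a := 1) (b := 4) (c := 3) P8 (by norm_num) (by norm_num)
  have q10 := pl (a := 0) (b := 10) (c := 8) P8 (by norm_num) (by norm_num)
  rw [pow_one] at q14
  rw [pow_zero] at q10
  obtain ⟨a, b, pa, pb, k1, k2, k3⟩ := sift (my := my) (ma := ma) (mv := mv) (mt := mt)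
    (β := fun x => mb x * B x) (g := g) (ν := ν) ⟨ha.nn, ha.one⟩ ⟨hv.nn, hv.one⟩ ⟨ht.nn, ht.one⟩
    (fun x => mul_nonneg (hb.nn x) (B0 x)) (K := 2 ^ (P ^ 4 + 2)) (L := 2 ^ P)
    (γ := (1 - e) * γ) (e := e) (ρ := (P ^ 6 : ℕ) * (1 / 2 ^ P ^ 24)) (Λ := 2 ^ (2 * P ^ 10))
    (p := P ^ 6) (r := P ^ 12) h1
    (fun t v c => by
      have := mul_le_mul (h2 v t c) (B1 (t + v)) (B0 _) (mul_nonneg (by norm_num) (ht.nn t))
      refine this.trans_eq ?_
      rw [pow_add]; ring)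
    g0 ν0 gν (by positivity) (mul_pos (by linarith) γ0) (one_le_pow₀ (by norm_num))
    (by
      have u1 : 1 / 2 ^ (P + 2) ≤ (1 - e) * γ := by
        refine le_trans (le_of_eq ?_) (mul_le_mul (by linarith : 1 / 2 ≤ 1 - e) hγ
          (by positivity) (by linarith))
        rw [pow_succ _ (P + 1)]; field_simp
      refine le_trans ?_ (mul_le_mul_of_nonneg_left
        (pow_le_pow_left₀ (by positivity) u1 _) (by positivity))
      rw [one_div_pow, mul_one_div, le_div_iff₀ (by positivity), ← pow_add, ← pow_mul, ← pow_mul,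
        ← pow_add]
      refine tw ?_
      calc (P ^ 4 + 2 + P) * P ^ 6 + (P + 2) * P ^ 6 = (P ^ 4 + (2 * P + 4)) * P ^ 6 := by ring
        _ ≤ (P ^ 4 + P ^ 4) * P ^ 6 := Nat.mul_le_mul_right _ (by omega)
        _ = 2 * P ^ 10 := by ring)
    e0 e2
    (by
      refine a6.trans ?_
      rw [he, div_div, show (8 : ℝ) = 2 ^ 3 by norm_num, ← pow_add]
      exact one_div_le_one_div_of_le (by positivity) (tw (by omega)))
    (by
      have u : (1 - e) ^ P ^ 12 ≤ 1 / 2 ^ (3 * P ^ 10) := half hP (by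
        have := pl (a := 11) (b := 12) (c := 6) P8 (by norm_num) (by norm_num)
        calc 2 * P * (3 * P ^ 10) = 6 * P ^ 11 := by ring
          _ ≤ _ := this)
      refine (mul_le_mul_of_nonneg_left u (by positivity)).trans ?_
      rw [mul_one_div, div_le_one (by positivity), show (32 : ℝ) = 2 ^ 5 by norm_num, ← pow_add]
      exact tw (by omega))
    (by
      have u : ((P ^ 6 : ℕ) : ℝ) ≤ 2 ^ P ^ 6 := by exact_mod_cast Nat.lt_two_pow_self.le
      refine (mul_le_mul_of_nonneg_left (mul_le_mul_of_nonneg_right u (by positivity))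
        (by positivity)).trans ?_
      rw [mul_one_div, ← mul_div_assoc, div_le_one (by positivity),
        show (16 : ℝ) = 2 ^ 4 by norm_num, ← pow_add, ← pow_mul, ← pow_add]
      refine tw ?_
      have v1 := pl (a := 22) (b := 24) (c := 7) P8 (by norm_num) (by norm_num)
      have v2 := pl (a := 6) (b := 22) (c := 1) P8 (by norm_num) (by norm_num)
      have v3 : (4 + 2 * P ^ 10) * (P ^ 12 + 1) ≤ (3 * P ^ 10) * (2 * P ^ 12) :=
        Nat.mul_le_mul (by omega) (by have := p1 12; omega)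
      have v4 : (3 * P ^ 10) * (2 * P ^ 12) = 6 * P ^ 22 := by ring
      omega)
    (den ha ht ν0 hL (by
      have := pl (a := 6) (b := 7) (c := 4) P8 (by norm_num) (by norm_num)
      have := p1 6
      omega) (by positivity) (by
      refine (mul_le_mul_of_nonneg_left hτ (by norm_num)).trans ?_
      rw [one_div_pow, ← pow_mul, mul_one_div, div_le_div_iff₀ (by positivity) (by positivity),
        one_mul, ← pow_succ']
      refine tw ?_
      have := pl (a := 24) (b := 28) (c := 5) P8 (by norm_num) (by norm_num)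
      have := p1 24
      omega))
    (by
      refine le_trans ?_ (hH.trans_eq ?_)
      · rw [mul_pow]
        have := pow_pos γ0 (P ^ 6)
        refine (mul_le_mul_of_nonneg_right a6 this.le).trans ?_
        rw [one_div_mul_eq_div]
        gcongr; linarith
      · simp only [L.Ex, mul_assoc])
  have v1 := pl (a := 12) (b := 15) (c := 4) P8 (by norm_num) (by norm_num)
  have v2 := pl (a := 10) (b := 12) (c := 3) P8 (by norm_num) (by norm_num)
  refine ⟨a, b, ⟨pa.1, pa.2⟩, ⟨pb.1, pb.2⟩, fun x => (k1 x).trans ?_, fun x => (k2 x).trans ?_, ?_⟩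
  · refine mul_le_mul_of_nonneg_right ?_ (ha.nn x)
    rw [show (32 : ℝ) = 2 ^ 5 by norm_num, ← pow_add, ← pow_add]
    exact tw (by omega)
  · refine mul_le_mul_of_nonneg_right ?_ (hv.nn x)
    rw [show (8 : ℝ) = 2 ^ 3 by norm_num, ← pow_add]
    exact tw (by omega)
  · have w1 : 1 - 8 / 2 ^ j ≤ 1 - 2 * e := by
      have : (8 / 2 ^ j : ℝ) = 8 * (1 / 2 ^ j) := by ring
      rw [this, ej]; linarith
    refine w1.trans (k3.trans ?_)
    rw [L.Ex_comm]
    refine sum_le_sum fun z _ => mul_le_mul_of_nonneg_left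
      (sum_le_sum fun y _ => mul_le_mul_of_nonneg_left ?_ (pa.1 y)) (pb.1 z)
    beta_reduce
    split_ifs with c1 c2
    · exact le_rfl
    · refine (c2 (le_trans ?_ (c1.trans_eq ?_))).elim
      · rw [ej, ← mul_assoc]
        exact mul_le_mul_of_nonneg_right (by nlinarith [sq_nonneg e]) γ0.le
      · rw [show (0 : G) - z + y = y - z by abel]
        simp only [L.Ex, mul_assoc]
    · exact zero_le_one
    · exact le_rfl

end Crest.Agent.N49.Km
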