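import Crest.Agent.N49.Km.One
import Crest.Agent.N49.Km.Defs

/-!
# Row 49 (helper81): relative Kelley–Meka step, part (2): an ambient dense set of directions
-/

set_option autoImplicit false
open Finset

namespace Crest.Agent.N49.Km
open L K1

variable {G : Type} [AddCommGroup G] [Fintype G]

namespace K1

theorem bern {h c : ℝ} (h0 : 0 ≤ h) (c0 : 0 < c) (p : ℕ) : c ^ p * (1 + p * (h / c - 1)) ≤ h ^ p := by
  have := one_add_mul_le_pow (a := h / c - 1) (by linarith [div_nonneg h0 c0.le]) p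
  rw [add_sub_cancel, div_pow, le_div_iff₀ (pow_pos c0 p)] at this
  rwa [mul_comm]

theorem two {my mb g ν : G → ℝ} {L : ℝ} (hy : Pr my) (hb : Pr mb) (g0 : ∀ x, 0 ≤ g x)
    (gν : ∀ x, g x ≤ L * ν x) (ν0 : ∀ x, 0 ≤ ν x) (L0 : 0 < L) {i p N : ℕ}
    (R : (Fin i → G) → G → Prop) {δ κ c τ η : ℝ} (δ0 : 0 < δ) (c0 : 0 < c) (η0 : 0 < η)
    (mass : δ ≤ Ex (ip mb i) fun b => Ex mb fun x => I (R b x))
    (hR : ∀ b x, R b x → κ ≤ Nb my g b ∧ c * Nb my g b ≤ Pb my g b x)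
    (lf : LF my mb (ak ν) N τ) (hN : 2 * (i + p + 1) ≤ N) (hτ : 2 * τ ≤ η ^ 4) :
    ∃ B : G → ℝ, (∀ x, 0 ≤ B x) ∧ (∀ x, B x ≤ 2 / δ) ∧ Ex mb B = 1 ∧
      κ * c ^ p / L ^ i - 2 / δ * (L ^ p * (i * ((2 / δ) ^ p * η))) ≤
        Ex my fun y => Ex mb (fun x => B x * g (y + x)) ^ p := by
  classical
  have hp := pr_ip hb i
  obtain ⟨d, hd⟩ : ∃ d : (Fin i → G) → ℝ, ∀ b, d b = Ex mb fun x => I (R b x) :=
    ⟨_, fun _ => rfl⟩
  simp only [← hd] at mass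
  have d1 : ∀ b, d b ≤ 1 := fun b => hd b ▸ hb.le_of fun _ => I_le _
  obtain ⟨m, hm⟩ : ∃ m, m = Ex (ip mb i) fun b => I (δ / 2 ≤ d b) := ⟨_, rfl⟩
  have m1 : δ / 2 ≤ m := by
    have : Ex (ip mb i) d ≤ Ex (ip mb i) fun b => I (δ / 2 ≤ d b) + δ / 2 :=
      hp.mono fun b => by
        by_cases k : δ / 2 ≤ d b
        · rw [I_pos k]; linarith [d1 b]
        · rw [I_neg k]; linarith [not_le.1 k]
    rw [Ex_add, hp.const, ← hm] at this
    linarith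
  obtain ⟨B, hB⟩ : ∃ B : (Fin i → G) → G → ℝ, ∀ b x, B b x = I (δ / 2 ≤ d b) * I (R b x) / d b :=
    ⟨_, fun _ _ => rfl⟩
  have d0 : ∀ b, 0 ≤ d b := fun b => hd b ▸ hb.nonneg fun _ => I_nonneg _
  have B0 : ∀ b x, 0 ≤ B b x := fun b x =>
    hB b x ▸ div_nonneg (mul_nonneg (I_nonneg _) (I_nonneg _)) (d0 b)
  have B1 : ∀ b x, B b x ≤ 2 / δ := fun b x => by
    rw [hB]
    by_cases k : δ / 2 ≤ d b
    · rw [I_pos k, one_mul, div_le_div_iff₀ (by linarith) δ0]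
      nlinarith [I_le (R b x)]
    · rw [I_neg k, zero_mul, zero_div]; positivity
  have B2 : ∀ b, δ / 2 ≤ d b → Ex mb (B b) = 1 := fun b k => by
    have : B b = fun x => I (R b x) * (d b)⁻¹ := funext fun x => by
      rw [hB, I_pos k, one_mul, div_eq_mul_inv]
    rw [this, Ex_mul', ← hd, mul_inv_cancel₀ (by linarith)]
  obtain ⟨H, hH⟩ : ∃ H : (Fin i → G) → G → ℝ, ∀ b y, H b y = Ex mb fun x => B b x * g (y + x) :=
    ⟨_, fun _ _ => rfl⟩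
  have H0 : ∀ b y, 0 ≤ H b y := fun b y => hH b y ▸ hb.nonneg fun x => mul_nonneg (B0 _ _) (g0 _)
  have key : ∀ (b : Fin i → G) (W : G → ℝ),
      (Ex (ip mb p) fun ξ => (I (δ / 2 ≤ d b) * ∏ l, B b (ξ l)) *
        Ex my fun y => W y * ∏ l, g (y + ξ l) / L) =
      I (δ / 2 ≤ d b) * ((Ex my fun y => W y * H b y ^ p) / L ^ p) := fun b W => by
    simp only [mul_assoc, Ex_mul]
    congr 1
    simp only [← Ex_mul]
    rw [Ex_comm, div_eq_mul_inv, ← Ex_mul']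
    congr 1; funext y
    simp only [mul_left_comm _ (W y), Ex_mul, ← prod_mul_distrib]
    rw [Ex_ip mb (fun x => B b x * (g (y + x) / L)), mul_assoc, ← inv_pow, ← mul_pow, hH,
      ← Ex_mul']
    simp only [div_eq_mul_inv, mul_assoc]
  have r := rem (B := fun b ξ => I (δ / 2 ≤ d b) * ∏ l, B b (ξ l)) (K := (2 / δ) ^ p)
    (Γ := fun y (ξ : Fin p → G) => ∏ l, g (y + ξ l) / L) (r := p) hy hb (pr_ip hb p)
    (fun _ _ => ν0 _) lf hN (fun y y' => by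
      simp only [← prod_mul_distrib]
      have q : ∀ x, 0 ≤ g x / L := fun x => div_nonneg (g0 x) L0.le
      have q' : ∀ x, g x / L ≤ ν x := fun x => by rw [div_le_iff₀ L0, mul_comm]; exact gν x
      rw [Ex_ip mb fun x => g (y + x) / L * (g (y' + x) / L),
        abs_of_nonneg (pow_nonneg (hb.nonneg fun x => mul_nonneg (q _) (q _)) _)]
      exact pow_le_pow_left₀ (hb.nonneg fun x => mul_nonneg (q _) (q _))
        (hb.mono fun x => mul_le_mul (q' _) (q' _) (q _) (ν0 _)) _)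
    (fun b ξ => by
      have a : ∏ l, B b (ξ l) ≤ (2 / δ) ^ p :=
        (prod_le_prod (fun _ _ => B0 _ _) fun _ _ => B1 _ _).trans_eq
          (by rw [prod_const, card_univ, Fintype.card_fin])
      have a0 : 0 ≤ ∏ l, B b (ξ l) := prod_nonneg fun _ _ => B0 _ _
      rw [abs_of_nonneg (mul_nonneg (I_nonneg _) a0)]
      exact (mul_le_of_le_one_left a0 (I_le _)).trans a) (by positivity) η0 hτ
  have key1 := fun b => key b fun _ => 1
  simp only [one_mul] at key1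
  simp only [key, key1] at r
  have ne : (univ.filter fun b => δ / 2 ≤ d b).Nonempty := by
    by_contra c
    have : m ≤ 0 := hm ▸ hp.le_of fun b =>
      (I_neg fun k => c ⟨b, mem_filter.2 ⟨mem_univ _, k⟩⟩).le
    linarith
  obtain ⟨b0, k0, mx⟩ := exists_max_image _ (fun b => Ex my fun y => H b y ^ p) ne
  have k1 := (mem_filter.1 k0).2
  refine ⟨B b0, B0 b0, B1 b0, B2 b0 k1, ?_⟩
  simp only [← hH]
  obtain ⟨X, hX⟩ : ∃ X, X = Ex my fun y => H b0 y ^ p := ⟨_, rfl⟩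
  rw [← hX] at mx ⊢
  have Lp := pow_pos L0 p
  have Li := pow_pos L0 i
  have up : (Ex (ip mb i) fun b => I (δ / 2 ≤ d b) * ((Ex my fun y => H b y ^ p) / L ^ p)) ≤
      m * (X / L ^ p) := by
    rw [hm, ← Ex_mul']
    refine hp.mono fun b => ?_
    by_cases k : δ / 2 ≤ d b
    · exact mul_le_mul_of_nonneg_left (div_le_div_of_nonneg_right
        (mx b (mem_filter.2 ⟨mem_univ _, k⟩)) Lp.le) (I_nonneg _)
    · rw [I_neg k, zero_mul, zero_mul]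
  have lw : m * (κ * c ^ p / L ^ i / L ^ p) ≤ Ex (ip mb i) fun b => I (δ / 2 ≤ d b) *
      ((Ex my fun y => (∏ l, ak ν y (b l)) * H b y ^ p) / L ^ p) := by
    rw [hm, ← Ex_mul']
    refine hp.mono fun b => ?_
    by_cases k : δ / 2 ≤ d b
    swap
    · rw [I_neg k, zero_mul, zero_mul]
    refine mul_le_mul_of_nonneg_left (div_le_div_of_nonneg_right ?_ Lp.le) (I_nonneg _)
    have ex : ∃ x, R b x := by
      by_contra c
      have : d b ≤ 0 := hd b ▸ hb.le_of fun x => (I_neg fun k => c ⟨x, k⟩).le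
      linarith
    obtain ⟨x0, r0⟩ := ex
    have n1 := (hR b x0 r0).1
    have a0 : ∀ y, 0 ≤ ∏ l, g (y + b l) := fun y => prod_nonneg fun _ _ => g0 _
    have e1 : c * Nb my g b ≤ Ex my fun y => (∏ l, g (y + b l)) * H b y := by
      simp only [hH, ← Ex_mul]
      rw [Ex_comm, ← one_mul (c * _), ← B2 b k, ← Ex_mul']
      refine hb.mono fun x => ?_
      simp only [mul_left_comm _ (B b x), Ex_mul]
      by_cases t : R b x
      · exact mul_le_mul_of_nonneg_left (hR b x t).2 (B0 b x)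
      · rw [hB, I_neg t]; simp
    have e2 : c ^ p * Nb my g b ≤ Ex my fun y => (∏ l, g (y + b l)) * H b y ^ p := by
      refine le_trans ?_ (hy.mono fun y =>
        mul_le_mul_of_nonneg_left (bern (H0 b y) c0 p) (a0 y))
      have e : (fun y => (∏ l, g (y + b l)) * (c ^ p * (1 + p * (H b y / c - 1)))) = fun y =>
          c ^ p * ((1 - p) * (∏ l, g (y + b l)) + p / c * ((∏ l, g (y + b l)) * H b y)) :=
        funext fun y => by ring
      rw [e, Ex_mul, Ex_add, Ex_mul, Ex_mul]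
      refine mul_le_mul_of_nonneg_left ?_ (pow_nonneg c0.le _)
      have f := mul_le_mul_of_nonneg_left e1 (by positivity : 0 ≤ (p : ℝ) / c)
      rw [← mul_assoc, div_mul_cancel₀ _ c0.ne'] at f
      have : Ex my (fun y => ∏ l, g (y + b l)) = Nb my g b := rfl
      rw [this]; linarith
    rw [div_le_iff₀ Li, mul_comm _ (L ^ i), ← Ex_mul, mul_comm κ]
    refine (mul_le_mul_of_nonneg_left n1 (pow_nonneg c0.le _)).trans (e2.trans (hy.mono fun y => ?_))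
    rw [← mul_assoc]
    exact mul_le_mul_of_nonneg_right (prod_le g0 gν b y) (pow_nonneg (H0 b y) _)
  have f := lw.trans (r.trans (add_le_add up le_rfl))
  obtain ⟨E, hE⟩ : ∃ E : ℝ, E = i * ((2 / δ) ^ p * η) := ⟨_, rfl⟩
  have E0 : 0 ≤ E := by rw [hE]; positivity
  rw [← hE] at f ⊢
  have m0 : 0 < m := by linarith
  have f2 : m * (κ * c ^ p / L ^ i - X) ≤ L ^ p * E := by
    have := mul_le_mul_of_nonneg_left f Lp.le
    rw [mul_add, mul_left_comm, mul_left_comm (L ^ p) m, mul_div_cancel₀ _ Lp.ne',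
      mul_div_cancel₀ _ Lp.ne'] at this
    linarith
  have f3 : L ^ p * E ≤ m * (2 / δ * (L ^ p * E)) := by
    rw [← mul_assoc]
    refine le_mul_of_one_le_left (by positivity) ?_
    rw [← mul_div_assoc, one_le_div δ0]; linarith
  linarith [le_of_mul_le_mul_left (f2.trans f3) m0]

theorem p2 {a b : ℕ} (h : a ≤ b) : (2 : ℝ) ^ a ≤ 2 ^ b := pow_le_pow_right₀ one_le_two h

theorem half {j Q : ℕ} (h : 2 ^ j ≤ Q) : (1 - 1 / 2 ^ j : ℝ) ^ Q ≤ 1 / 2 := by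
  have t0 : (0 : ℝ) < 2 ^ j := by positivity
  have e0 : (0 : ℝ) < 1 / 2 ^ j := by positivity
  have e1 : (1 : ℝ) / 2 ^ j ≤ 1 := by rw [div_le_one t0]; exact one_le_pow₀ one_le_two
  have a := one_add_mul_le_pow (a := (1 : ℝ) / 2 ^ j) (by linarith) Q
  have b : (1 : ℝ) ≤ Q * (1 / 2 ^ j) := by
    rw [mul_one_div, one_le_div t0]; exact_mod_cast h
  have c : (1 - 1 / 2 ^ j : ℝ) ^ Q * (1 + 1 / 2 ^ j) ^ Q ≤ 1 := by
    rw [← mul_pow]; exact pow_le_one₀ (by nlinarith) (by nlinarith)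
  have d : (0 : ℝ) ≤ (1 - 1 / 2 ^ j) ^ Q := pow_nonneg (by linarith) _
  nlinarith

end K1

/-- **steps (1), (2)** -/
theorem st12 : ST12 G := by
  intro my mb g ν P j Q γ τ hy hb ν0 g0 gν hj hQ hP γ1 _ hγ lf hτ
  have q8 : 8 ≤ Q := (Nat.pow_le_pow_right (by norm_num) hj : 2 ^ 3 ≤ 2 ^ j).trans hQ
  have p8 : 8 ≤ P := q8.trans hP
  have pw : ∀ k, 8 * P ^ k ≤ P ^ (k + 1) := fun k => by
    rw [pow_succ, mul_comm]; exact Nat.mul_le_mul_left _ p8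
  have mo : ∀ {k l}, k ≤ l → P ^ k ≤ P ^ l := fun h => Nat.pow_le_pow_right (by omega) h
  have a1 := pw 1
  have a2 := pw 2
  have a3 := pw 3
  have a6 := pw 6
  have a26 := pw 26
  have a27 := pw 27
  have b6 : P ^ 1 ≤ P ^ 6 := mo (by norm_num)
  have b4 : P ^ 4 ≤ P ^ 26 := mo (by norm_num)
  have b7 : P ^ 7 ≤ P ^ 26 := mo (by norm_num)
  have b10 : P ^ 10 ≤ P ^ 26 := mo (by norm_num)
  have b3 : P ^ 3 ≤ P ^ 26 := mo (by norm_num)
  have b6' : P ^ 6 ≤ P ^ 26 := mo (by norm_num)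
  norm_num only [pow_one] at a1 a2 a3 a6 a26 a27 b6
  have L1 : (1 : ℝ) ≤ 2 ^ P := one_le_pow₀ one_le_two
  have t0 : (0 : ℝ) < 2 ^ j := by positivity
  have e2 : (1 : ℝ) / 2 ^ j ≤ 1 / 2 := by
    simpa using one_div_le_one_div_of_le (by norm_num) (p2 (show 1 ≤ j by omega))
  have γ0 : 0 < γ := lt_of_lt_of_le (by positivity) γ1
  have hτ4 : 2 * τ ≤ (1 / 2 ^ P ^ 27) ^ 4 := by
    rw [div_pow, one_pow, ← pow_mul, le_div_iff₀ (by positivity)]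
    have w1 := mul_le_mul_of_nonneg_right hτ (by positivity : (0 : ℝ) ≤ 2 ^ (P ^ 27 * 4 + 1))
    have w2 := (div_le_one (by positivity)).2 (p2 (show P ^ 27 * 4 + 1 ≤ P ^ 28 by omega))
    rw [one_div_mul_eq_div] at w1
    have w3 := w1.trans w2
    rw [pow_succ 2] at w3
    linarith
  have sτ : √(√τ) ≤ 1 / 2 ^ P ^ 27 := by
    refine Real.sqrt_le_iff.2 ⟨by positivity, Real.sqrt_le_iff.2 ⟨by positivity, ?_⟩⟩
    rw [← pow_mul]
    have : (0 : ℝ) ≤ (1 / 2 ^ P ^ 27) ^ 4 := by positivity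
    norm_num only at *
    linarith
  obtain ⟨i, iQ, h1⟩ := one (κ := 1 / 2 ^ (5 * P ^ 3)) (e := 1 / 2 ^ j) (n := P ^ 7) (τ := τ)
    ⟨hy.nn, hy.one⟩ ⟨hb.nn, hb.one⟩ g0 gν ν0 L1 γ1 (by positivity) (by omega) (by omega)
    (by linarith) (half hQ) (by rw [GC_right] at hγ; exact hγ)
    (fun k l hk hl => by have := lf.1 k hk l hl; rw [GC_right] at this; exact this)
    (by simpa only [Ex, ak, mul_sum, mul_assoc] using lf.2)
  have QP : Q * P ≤ P ^ 2 := by rw [sq]; exact Nat.mul_le_mul_right _ hP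
  have QP3 : Q ^ 2 * P ≤ P ^ 3 := by
    rw [pow_succ P 2]; exact Nat.mul_le_mul_right _ (Nat.pow_le_pow_left hP 2)
  have LQ : ((2 : ℝ) ^ P) ^ Q ≤ 2 ^ P ^ 2 := by rw [← pow_mul]; exact p2 (by nlinarith)
  have ms : (1 : ℝ) / 2 ^ (4 * P ^ 3 + 6) ≤ 1 / (32 * (2 ^ P) ^ (4 * Q ^ 2)) -
      4 * (2 ^ P) ^ Q * (2 ^ P * (1 / 2 ^ (5 * P ^ 3)) + 2 * (2 ^ P) ^ Q * √(√τ)) := by
    have u1 : (1 : ℝ) / 2 ^ (4 * P ^ 3 + 5) ≤ 1 / (32 * (2 ^ P) ^ (4 * Q ^ 2)) := by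
      refine one_div_le_one_div_of_le (by positivity) ?_
      rw [← pow_mul, pow_add, mul_comm]
      exact mul_le_mul (p2 (by nlinarith)) (by norm_num) (by norm_num) (by positivity)
    have u2 : 4 * (2 : ℝ) ^ P ^ 2 * (2 ^ P * (1 / 2 ^ (5 * P ^ 3))) ≤ 1 / 2 ^ (4 * P ^ 3 + 7) := by
      rw [mul_one_div, ← mul_div_assoc, div_le_div_iff₀ (by positivity) (by positivity), one_mul,
        show (4 : ℝ) = 2 ^ 2 by norm_num, ← pow_add, ← pow_add, ← pow_add]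
      exact p2 (by omega)
    have u3 : 4 * (2 : ℝ) ^ P ^ 2 * (2 * 2 ^ P ^ 2 * (1 / 2 ^ P ^ 27)) ≤ 1 / 2 ^ (4 * P ^ 3 + 7) := by
      rw [mul_one_div, ← mul_div_assoc, div_le_div_iff₀ (by positivity) (by positivity), one_mul,
        show (4 : ℝ) = 2 ^ 2 by norm_num, ← pow_succ', ← pow_add, ← pow_add, ← pow_add]
      exact p2 (by omega)
    have u4 : 4 * ((2 : ℝ) ^ P) ^ Q * (2 ^ P * (1 / 2 ^ (5 * P ^ 3)) + 2 * (2 ^ P) ^ Q * √(√τ)) ≤
        4 * 2 ^ P ^ 2 * (2 ^ P * (1 / 2 ^ (5 * P ^ 3)) + 2 * 2 ^ P ^ 2 * (1 / 2 ^ P ^ 27)) := by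
      gcongr
    have u5 : (1 : ℝ) / 2 ^ (4 * P ^ 3 + 5) = 4 * (1 / 2 ^ (4 * P ^ 3 + 7)) := by
      field_simp; ring
    have u6 : (1 : ℝ) / 2 ^ (4 * P ^ 3 + 6) = 2 * (1 / 2 ^ (4 * P ^ 3 + 7)) := by
      field_simp; ring
    rw [mul_add (4 * (2 : ℝ) ^ P ^ 2)] at u4
    linarith
  have c0 : 0 < (1 - 1 / 2 ^ j) * γ := mul_pos (by linarith) γ0
  obtain ⟨B, B0, B1, B2, h2⟩ := two (p := P ^ 6) (η := 1 / 2 ^ P ^ 27) hy hb g0 gν ν0
    (by positivity) (fun b x => 1 / 2 ^ (5 * P ^ 3) ≤ Nb my g b ∧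
      (1 - 1 / 2 ^ j) * γ * Nb my g b ≤ Pb my g b x) (δ := 1 / 2 ^ (4 * P ^ 3 + 6))
    (by positivity) c0 (by positivity)
    ((ms.trans h1).trans_eq (by
      rw [Fintype.sum_prod_type]
      simp only [Ex, mul_sum, mul_assoc]; rfl)) (fun _ _ h => h) lf (by omega) hτ4
  have dl : (2 : ℝ) / (1 / 2 ^ (4 * P ^ 3 + 6)) ≤ 2 ^ P ^ 4 := by
    rw [div_div_eq_mul_div, div_one, ← pow_succ']; exact p2 (by omega)
  refine ⟨B, B0, fun x => (B1 x).trans dl, B2, le_trans ?_ h2⟩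
  obtain ⟨c, hc⟩ : ∃ c, c = (1 - 1 / 2 ^ j) * γ := ⟨_, rfl⟩
  rw [← hc] at c0 ⊢
  have c1 : 1 / 2 ^ (P + 1) ≤ c := by
    rw [hc, pow_succ', ← one_div_mul_one_div]
    exact mul_le_mul (by linarith) γ1 (by positivity) (by linarith)
  have c2 : 1 / 2 ^ (P ^ 7 + P ^ 6) ≤ c ^ P ^ 6 := by
    refine le_trans (le_of_eq ?_) (pow_le_pow_left₀ (by positivity) c1 _)
    rw [div_pow, one_pow, ← pow_mul]; congr 2; ring
  have v1 : 4 * c ^ P ^ 6 / 2 ^ P ^ 4 ≤ 1 / 2 ^ (5 * P ^ 3) * c ^ P ^ 6 / (2 ^ P) ^ i := by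
    rw [one_div_mul_eq_div, div_div, mul_comm, mul_div_assoc, div_eq_mul_one_div (c ^ P ^ 6)]
    refine mul_le_mul_of_nonneg_left ?_ (by positivity)
    rw [div_le_div_iff₀ (by positivity) (by positivity), one_mul, show (4 : ℝ) = 2 ^ 2 by norm_num,
      ← pow_mul, ← pow_add, ← pow_add]
    exact p2 (by nlinarith)
  have v2 : 2 / (1 / 2 ^ (4 * P ^ 3 + 6)) * (((2 : ℝ) ^ P) ^ P ^ 6 *
      (i * ((2 / (1 / 2 ^ (4 * P ^ 3 + 6))) ^ P ^ 6 * (1 / 2 ^ P ^ 27)))) ≤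
      2 ^ P ^ 4 * ((2 ^ P) ^ P ^ 6 * (2 ^ P * ((2 ^ P ^ 4) ^ P ^ 6 * (1 / 2 ^ P ^ 27)))) := by
    have : (i : ℝ) ≤ 2 ^ P := by
      exact_mod_cast (show i ≤ P by omega).trans Nat.lt_two_pow_self.le
    gcongr
  have v3 : (2 : ℝ) ^ P ^ 4 * ((2 ^ P) ^ P ^ 6 * (2 ^ P * ((2 ^ P ^ 4) ^ P ^ 6 *
      (1 / 2 ^ P ^ 27)))) ≤ 1 / 2 ^ (P ^ 7 + P ^ 6) / 2 ^ P ^ 4 := by
    rw [← pow_mul, ← pow_mul, ← pow_succ', ← pow_add P 4 6, mul_one_div, ← mul_div_assoc,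
      ← mul_div_assoc, ← mul_div_assoc, div_div, div_le_div_iff₀ (by positivity) (by positivity),
      one_mul]
    simp only [← pow_add]
    exact p2 (by norm_num only; omega)
  have v4 : 1 / 2 ^ (P ^ 7 + P ^ 6) / 2 ^ P ^ 4 ≤ c ^ P ^ 6 / (2 : ℝ) ^ P ^ 4 :=
    div_le_div_of_nonneg_right c2 (by positivity)
  have v5 : 0 ≤ c ^ P ^ 6 / (2 : ℝ) ^ P ^ 4 := by positivity
  rw [mul_div_assoc] at v1 ⊢
  linarith

end Crest.Agent.N49.Km
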