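import Crest.Agent.N49.Km.Defs
import Crest.Agent.N49.Lo.Ap

/-!
# Row 49 (helper70): the relative Kelley–Meka step from its pieces
-/

set_option autoImplicit false
open Finset

namespace Crest.Agent.N49.Km
open L

variable {G : Type} [AddCommGroup G] [Fintype G]

theorem lo {X : Type*} [Fintype X] {μ : X → ℝ} (h : Pr μ) : Lo.Pr μ := ⟨h.nn, h.one⟩

theorem add_four_le {j : ℕ} (h : 3 ≤ j) : j + 4 ≤ 2 ^ j := by
  induction j, h using Nat.le_induction with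
  | base => norm_num
  | succ j _ ih => rw [pow_succ]; omega

theorem apP_le {P j : ℕ} (h : 3 ≤ j) (hP : 2 ^ j ≤ P) : Lo.apP (P ^ 15) j ≤ P ^ 68 := by
  have a := add_four_le h
  have p8 : 8 ≤ P := (Nat.pow_le_pow_right (by norm_num) h : 2 ^ 3 ≤ 2 ^ j).trans hP
  have b : P ≤ P ^ 15 := Nat.le_self_pow (by norm_num) P
  calc _ ≤ 2 ^ 14 * (2 * P ^ 15) ^ 4 * P ^ 2 := by
        unfold Lo.apP
        refine Nat.mul_le_mul (Nat.mul_le_mul_left _ (Nat.pow_le_pow_left (by omega) 4)) ?_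
        rw [show 4 ^ j = (2 ^ j) ^ 2 by rw [← pow_mul, mul_comm, pow_mul]; norm_num]
        exact Nat.pow_le_pow_left hP 2
    _ = 8 ^ 6 * P ^ 62 := by ring
    _ ≤ P ^ 6 * P ^ 62 := Nat.mul_le_mul_right _ (Nat.pow_le_pow_left p8 6)
    _ = _ := by ring

theorem sum_rho (a v mb B F : G → ℝ) :
    ∑ p, (Ex v fun z => Ex mb fun x => B x * a (p + z - x)) * F p =
      Ex a fun y => Ex v fun z => Ex mb fun x => B x * F (y - z + x) := by
  rw [Ex_comm]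
  simp only [← Ex_mul', ← Ex_sum]
  congr 1; funext z
  rw [Ex_comm]
  congr 1; funext x
  rw [Ex_mul, Ex, mul_sum, ← Lo.sum_shift (-z + x)]
  refine sum_congr rfl fun y _ => ?_
  rw [show y + (-z + x) + z - x = y by abel, show y + (-z + x) = y - z + x by abel, mul_assoc]

/-- **the relative Kelley–Meka step** -/
theorem km_of (h12 : ST12 G) (h3 : ST3 G) {my mb ma mv mt σ g ν : G → ℝ} {P j Q : ℕ} {γ : ℝ}
    (hy : Pr my) (hb : Pr mb) (ha : Pr ma) (hv : Pr mv) (ht : Pr mt) (hσ : Pr σ)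
    (dy : ∀ y, my y ≤ 2 * Ex mv fun v => ma (y + v))
    (dt : ∀ v t, mv v ≠ 0 → mb (t + v) ≤ 4 * mt t) (ν0 : ∀ x, 0 ≤ ν x) (g0 : ∀ x, 0 ≤ g x)
    (hg : ∀ x, g x ≤ 2 ^ P * ν x) (hj : 3 ≤ j) (hQ : 2 ^ j ≤ Q) (hP : Q ≤ P) (γ1 : 1 / 2 ^ P ≤ γ)
    (γ2 : γ ≤ 2 ^ P) (hγ : γ ^ (Q * Q) ≤ GC my mb (ak g) Q Q)
    (l1 : LF my mb (ak ν) (P ^ 7) (1 / 2 ^ P ^ 68)) (l2 : LF ma mt (ak ν) (P ^ 7) (1 / 2 ^ P ^ 68))
    (t1 : Ex σ (Lo.tv mv) ≤ 1 / 2 ^ P ^ 68) (t2 : Ex σ (Lo.tv ma) ≤ 1 / 2 ^ P ^ 68)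
    (t3 : Ex mv (Lo.tv ma) ≤ 1 / 2 ^ P ^ 68) :
    ∃ (Λ : Finset (AddChar G ℂ)) (ρ : G → ℝ), #Λ ≤ P ^ 68 ∧ Pr ρ ∧
      (∀ p, ρ p ≤ 2 ^ P ^ 68 * cv ma mv mb p) ∧ ∀ w, ∑ ψ ∈ Λ, ‖ψ w - 1‖ ≤ 1 / 2 ^ P ^ 68 →
        Lo.tv σ w ≤ 1 / 2 ^ P ^ 68 → Lo.tv ma w ≤ 1 / 2 ^ P ^ 68 →
          (1 - 11 / 2 ^ j) * γ ≤ Ex ρ fun p => g (p + w) := by
  classical
  have jP := hQ.trans hP
  have j4 := add_four_le hj
  have p8 : 8 ≤ P := (Nat.pow_le_pow_right (by norm_num) hj : 2 ^ 3 ≤ 2 ^ j).trans jP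
  have mo : ∀ {a b : ℕ}, a ≤ b → P ^ a ≤ P ^ b := fun h => Nat.pow_le_pow_right (by omega) h
  have τ1 : (1 : ℝ) / 2 ^ P ^ 68 ≤ 1 / 2 ^ P ^ 28 := Lo.ip_le (mo (by norm_num))
  have e8 : (1 : ℝ) / 2 ^ j ≤ 1 / 8 := (Lo.ip_le hj).trans_eq (by norm_num)
  have e0 : (0 : ℝ) < 1 / 2 ^ j := by positivity
  have γ0 : 0 < γ := lt_of_lt_of_le (by positivity) γ1
  obtain ⟨B, B0, B1, BE, hB⟩ := h12 my mb g ν P j Q γ _ hy hb ν0 g0 hg hj hQ hP γ1 γ2 hγ l1 τ1
  obtain ⟨a, v, pa, pv, aa, vv, hS⟩ := h3 my mb ma mv mt g ν B P j ((1 - 1 / 2 ^ j) * γ) _ hy hb ha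
    hv ht dy dt ν0 g0 hg hj jP (by
      rw [pow_succ, ← div_div]
      nlinarith) B0 B1 l2 τ1 hB
  set c := (1 - 1 / 2 ^ j) * ((1 - 1 / 2 ^ j) * γ) with hc
  set H : G → ℝ := fun s => Ex mb fun x => B x * g (s + x) with hH
  have aE := Lo.ip_le (apP_le hj jP)
  obtain ⟨Λ, hΛ, hap⟩ := Lo.ap (f := fun z => if c ≤ H (-z) then 1 else 0) (lo pv) (lo pa) (lo hv)
    (lo ha) (lo hσ) vv aa (fun _ => by positivity) (fun _ => by split_ifs <;> norm_num) j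
    (t1.trans aE) (t2.trans aE) (t3.trans aE)
  have T : ∀ w, Lo.T v a (fun z => if c ≤ H (-z) then 1 else 0) (-w) =
      Ex a fun y => Ex v fun z => if c ≤ H (y - z + w) then 1 else 0 := fun w =>
    sum_congr rfl fun y _ => congrArg _ (sum_congr rfl fun z _ => by
      simp only [show -(-w - y + z) = y - z + w by abel])
  refine ⟨Λ, fun p => Ex v fun z => Ex mb fun x => B x * a (p + z - x), hΛ.trans (apP_le hj jP),
    ⟨fun p => pv.nonneg fun z => hb.nonneg fun x => mul_nonneg (B0 x) (pa.nn _), ?_⟩, fun p => ?_,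
    fun w w1 w2 w3 => ?_⟩
  · have := sum_rho a v mb B fun _ => 1
    simp only [mul_one, pv.const, pa.const] at this
    exact this.trans BE
  · have k : ∀ z, (Ex mb fun x => B x * a (p + z - x)) ≤
        2 ^ P ^ 4 * 2 ^ P ^ 15 * Ex mb fun x => ma (p + z - x) := fun z => by
      rw [← Ex_mul]
      exact hb.mono fun x => (mul_le_mul (B1 x) (aa _) (pa.nn _) (by positivity)).trans_eq
        (mul_assoc ..).symm
    have c0 : ∀ z, 0 ≤ Ex mb fun x => ma (p + z - x) := fun z => hb.nonneg fun _ => ha.nn _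
    calc _ ≤ 2 ^ P ^ 15 * (2 ^ P ^ 4 * 2 ^ P ^ 15) * cv ma mv mb p := by
          simp only [cv, Ex.eq_1 v, Ex.eq_1 mv, mul_sum]
          exact sum_le_sum fun z _ => (mul_le_mul (vv z) (k z)
            (hb.nonneg fun x => mul_nonneg (B0 x) (pa.nn _))
            (mul_nonneg (by positivity) (hv.nn z))).trans_eq (by ring)
      _ ≤ _ := by
          refine mul_le_mul_of_nonneg_right ?_ (hv.nonneg c0)
          rw [← pow_add, ← pow_add]
          refine pow_le_pow_right₀ one_le_two ?_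
          have := mo (show 4 ≤ 15 by norm_num)
          have := mo (show 16 ≤ 68 by norm_num)
          have : 8 * P ^ 15 ≤ P ^ 16 := by rw [pow_succ' P 15]; exact Nat.mul_le_mul_right _ p8
          omega
  · have n : ∀ ψ : AddChar G ℂ, ‖ψ (-w) - 1‖ = ‖ψ w - 1‖ := fun ψ => by
      rw [AddChar.map_neg_eq_conj, ← Complex.norm_conj (ψ w - 1), map_sub, map_one]
    have := hap (-w) 0 (by
      simp only [n]
      refine w1.trans (Lo.ip_le ?_)
      have : P ≤ P ^ 15 := Nat.le_self_pow (by norm_num) P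
      have := mo (show 16 ≤ 68 by norm_num)
      have : 8 * P ^ 15 ≤ P ^ 16 := by rw [pow_succ' P 15]; exact Nat.mul_le_mul_right _ p8
      omega) (by rw [Lo.tv_neg]; exact w2.trans aE) (by rw [Lo.tv_neg]; exact w3.trans aE)
      (by rw [Lo.tv_zero]; positivity)
    have T0 := T 0
    rw [neg_zero] at T0
    rw [zero_add, T, T0] at this
    simp only [add_zero] at this
    have c0 : 0 ≤ c := mul_nonneg (by linarith) (mul_nonneg (by linarith) γ0.le)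
    have lb : c * (Ex a fun y => Ex v fun z => if c ≤ H (y - z + w) then 1 else 0) ≤
        Ex a fun y => Ex v fun z => Ex mb fun x => B x * g (y - z + x + w) := by
      rw [← Ex_mul]
      refine pa.mono fun y => ?_
      rw [← Ex_mul]
      refine pv.mono fun z => ?_
      simp only [add_right_comm (y - z) _ w]
      split_ifs with k
      · rw [mul_one]; exact k
      · rw [mul_zero]; exact hb.nonneg fun x => mul_nonneg (B0 x) (g0 _)
    rw [Ex, sum_rho a v mb B fun p => g (p + w)]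
    refine le_trans ?_ lb
    have q := (abs_le.1 this).1
    have e1 : (8 : ℝ) / 2 ^ j = 8 * (1 / 2 ^ j) := by ring
    have e2 : (11 : ℝ) / 2 ^ j = 11 * (1 / 2 ^ j) := by ring
    rw [e1] at hS
    refine le_trans ?_ (mul_le_mul_of_nonneg_left (show 1 - 9 * (1 / 2 ^ j) ≤ _ by
      simp only [hH] at q ⊢; linarith) c0)
    rw [e2, hc]
    generalize (1 : ℝ) / 2 ^ j = e at *
    nlinarith [mul_nonneg (mul_nonneg (sq_nonneg e) (show 0 ≤ 19 - 9 * e by linarith)) γ0.le]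

end Crest.Agent.N49.Km
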