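import Crest.Agent.N49.Lo.Cs

/-!
# Row 49 (helper81): relative Kelley–Meka step, part (1): from the grid to a dense set of pairs
-/

set_option autoImplicit false
open Finset

namespace Crest.Agent.N49.Km.K1
open Lo Lo.Csa

variable {G : Type*} [AddCommGroup G] [Fintype G]

/-- the mass of the common weight of the columns `b` -/
def Nb (my g : G → ℝ) {j : ℕ} (b : Fin j → G) : ℝ := ∑ a, my a * ∏ l, g (a + b l)

/-- the same with one more column `x` -/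
def Pb (my g : G → ℝ) {j : ℕ} (b : Fin j → G) (x : G) : ℝ :=
  ∑ a, my a * ((∏ l, g (a + b l)) * g (a + x))

/-- grid counts -/
def Im (my mb g : G → ℝ) (k l : ℕ) : ℝ := ∑ b : Fin l → G, pw mb b * Nb my g b ^ k

open Classical in
/-- indicator -/
noncomputable def I (p : Prop) : ℝ := if p then 1 else 0

theorem I_pos {p : Prop} (h : p) : I p = 1 := if_pos h
theorem I_neg {p : Prop} (h : ¬p) : I p = 0 := if_neg h
theorem I_nonneg (p : Prop) : 0 ≤ I p := by unfold I; split_ifs <;> norm_num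
theorem I_le (p : Prop) : I p ≤ 1 := by unfold I; split_ifs <;> norm_num

theorem gc_eq (my mb f : G → ℝ) (k l : ℕ) :
    ∑ a : Fin k → G, ∑ b : Fin l → G, pw my a * pw mb b * ∏ i, ∏ j, f (a i + b j) =
      Im my mb f k l := by
  rw [sum_comm]
  refine sum_congr rfl fun b _ => ?_
  rw [Nb, Fintype.sum_pow, mul_sum]
  refine sum_congr rfl fun a _ => ?_
  rw [prod_mul_distrib, pw]; ring

theorem Im_zero (my mb f : G → ℝ) (hy : Pr my) (k : ℕ) : Im my mb f k 0 = 1 := by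
  simp [Im, Nb, pw, hy.2]

theorem Im_succ (my mb f : G → ℝ) (k l : ℕ) : Im my mb f k (l + 1) =
    ∑ p : (Fin l → G) × G, pw mb p.1 * mb p.2 * Pb my f p.1 p.2 ^ k := by
  rw [Im, ← (Fin.consEquiv fun _ => G).sum_comp, Fintype.sum_prod_type, Fintype.sum_prod_type,
    sum_comm]
  refine sum_congr rfl fun b _ => sum_congr rfl fun x _ => ?_
  simp only [pw, Nb, Pb, Fin.prod_univ_succ, Fin.consEquiv_apply, Fin.cons_zero, Fin.cons_succ]
  rw [mul_comm (mb x)]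
  congr 2
  exact sum_congr rfl fun a _ => by ring

theorem Im_one (my mb f : G → ℝ) (l : ℕ) :
    Im my mb f 1 l = ∑ a, my a * (∑ x, mb x * f (a + x)) ^ l := by
  simp only [Im, Nb, pow_one, mul_sum]
  rw [sum_comm]
  refine sum_congr rfl fun a _ => ?_
  rw [Fintype.sum_pow, mul_sum]
  refine sum_congr rfl fun b _ => ?_
  rw [prod_mul_distrib, pw]; ring

theorem wcs {α : Type*} [Fintype α] {w : α → ℝ} (hw : ∀ x, 0 ≤ w x) (f h : α → ℝ) :
    (∑ x, w x * (f x * h x)) ^ 2 ≤ (∑ x, w x * f x ^ 2) * ∑ x, w x * h x ^ 2 :=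
  sum_sq_le_sum_mul_sum_of_sq_le_mul _ (fun x _ => mul_nonneg (hw x) (sq_nonneg _))
    (fun x _ => mul_nonneg (hw x) (sq_nonneg _)) fun x _ => le_of_eq (by ring)

variable {my mb g ν : G → ℝ} {L : ℝ}

omit [Fintype G] in
theorem prod_le (g0 : ∀ x, 0 ≤ g x) (gν : ∀ x, g x ≤ L * ν x) {j : ℕ} (b : Fin j → G) (a : G) :
    ∏ l, g (a + b l) ≤ L ^ j * ∏ l, ν (a + b l) := by
  refine (prod_le_prod (fun l _ => g0 _) fun l _ => gν _).trans (le_of_eq ?_)
  rw [prod_mul_distrib, prod_const, card_univ, Fintype.card_fin]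

theorem Nb_nonneg (hy : Pr my) (g0 : ∀ x, 0 ≤ g x) {j : ℕ} (b : Fin j → G) : 0 ≤ Nb my g b :=
  sum_nonneg fun a _ => mul_nonneg (hy.1 a) (prod_nonneg fun _ _ => g0 _)

theorem Pb_nonneg (hy : Pr my) (g0 : ∀ x, 0 ≤ g x) {j : ℕ} (b : Fin j → G) (x : G) :
    0 ≤ Pb my g b x :=
  sum_nonneg fun a _ => mul_nonneg (hy.1 a) (mul_nonneg (prod_nonneg fun _ _ => g0 _) (g0 _))

theorem Im_le (hy : Pr my) (hb : Pr mb) (g0 : ∀ x, 0 ≤ g x) (gν : ∀ x, g x ≤ L * ν x)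
    (k l : ℕ) : Im my mb g k l ≤ L ^ (k * l) * Im my mb ν k l := by
  rw [Im, Im, mul_sum]
  refine sum_le_sum fun b _ => ?_
  rw [mul_left_comm, mul_comm k, pow_mul, ← mul_pow]
  refine mul_le_mul_of_nonneg_left (pow_le_pow_left₀ (Nb_nonneg hy g0 b) ?_ _) ((pr_pw hb l).1 b)
  rw [Nb, Nb, mul_sum]
  refine sum_le_sum fun a _ => ?_
  rw [mul_left_comm]
  exact mul_le_mul_of_nonneg_left (prod_le g0 gν b a) (hy.1 a)

/-- the column means of the majorant are close to one -/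
theorem var_le (hy : Pr my) (hb : Pr mb) {τ : ℝ}
    (box : ∑ y, ∑ y', my y * my y' *
      (∑ b, mb b * ((ν (y + b) - 1) * (ν (y' + b) - 1))) ^ 2 ≤ τ) :
    ∑ a, my a * (∑ x, mb x * ν (a + x) - 1) ^ 2 ≤ √τ := by
  obtain ⟨D, hD⟩ : ∃ D : G → ℝ, ∀ a, D a = ∑ x, mb x * ν (a + x) - 1 := ⟨_, fun _ => rfl⟩
  have hD' : ∀ a, D a = ∑ x, mb x * (ν (a + x) - 1) := fun a => by
    simp only [hD, mul_sub, sum_sub_distrib, mul_one, hb.2]
  simp only [← hD]
  obtain ⟨V, hV⟩ : ∃ V, V = ∑ a, my a * D a ^ 2 := ⟨_, rfl⟩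
  have V0 : 0 ≤ V := hV ▸ sum_nonneg fun a _ => mul_nonneg (hy.1 a) (sq_nonneg _)
  rw [← hV]
  have e1 : V = ∑ x, mb x * (1 * ∑ a, my a * (D a * (ν (a + x) - 1))) := by
    rw [hV]
    simp only [one_mul, mul_sum]
    rw [sum_comm]
    refine sum_congr rfl fun a _ => ?_
    rw [sq]
    nth_rewrite 2 [hD' a]
    rw [mul_sum, mul_sum]
    exact sum_congr rfl fun x _ => by ring
  have c1 := wcs hb.1 (fun _ => 1) fun x => ∑ a, my a * (D a * (ν (a + x) - 1))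
  rw [← e1] at c1
  simp only [one_pow, mul_one, hb.2, one_mul] at c1
  have e2 : ∑ x, mb x * (∑ a, my a * (D a * (ν (a + x) - 1))) ^ 2 =
      ∑ p : G × G, my p.1 * my p.2 * ((D p.1 * D p.2) *
        ∑ b, mb b * ((ν (p.1 + b) - 1) * (ν (p.2 + b) - 1))) := by
    simp only [sq, sum_mul_sum]
    simp only [mul_sum]
    rw [sum_comm, Fintype.sum_prod_type]
    refine sum_congr rfl fun a _ => ?_
    rw [sum_comm]
    exact sum_congr rfl fun a' _ => sum_congr rfl fun x _ => by ring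
  have c2 := wcs (w := fun p : G × G => my p.1 * my p.2)
    (fun p => mul_nonneg (hy.1 _) (hy.1 _)) (fun p => D p.1 * D p.2)
    fun p => ∑ b, mb b * ((ν (p.1 + b) - 1) * (ν (p.2 + b) - 1))
  have e3 : ∑ p : G × G, my p.1 * my p.2 * (D p.1 * D p.2) ^ 2 = V ^ 2 := by
    rw [hV, sq (∑ a, my a * D a ^ 2), sum_mul_sum, Fintype.sum_prod_type]
    exact sum_congr rfl fun a _ => sum_congr rfl fun a' _ => by ring
  rw [← e2, e3, Fintype.sum_prod_type] at c2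
  have c3 : (V ^ 2) ^ 2 ≤ V ^ 2 * τ :=
    (pow_le_pow_left₀ (sq_nonneg _) c1 2).trans
      (c2.trans (mul_le_mul_of_nonneg_left box (sq_nonneg _)))
  rcases V0.eq_or_lt with z | z
  · rw [← z]; exact Real.sqrt_nonneg _
  · refine Real.le_sqrt_of_sq_le ?_
    rw [sq (V ^ 2)] at c3
    exact le_of_mul_le_mul_left c3 (pow_pos z 2)

/-- light tuples of columns carry little mass -/
theorem light (hy : Pr my) (hb : Pr mb) (g0 : ∀ x, 0 ≤ g x) (gν : ∀ x, g x ≤ L * ν x)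
    (ν0 : ∀ x, 0 ≤ ν x) (L0 : 0 ≤ L) {τ κ : ℝ} (κ0 : 0 ≤ κ) {j : ℕ}
    (cnt : Im my mb ν 1 (2 * j) ≤ 2)
    (box : ∑ y, ∑ y', my y * my y' *
      (∑ b, mb b * ((ν (y + b) - 1) * (ν (y' + b) - 1))) ^ 2 ≤ τ) :
    ∑ p : (Fin j → G) × G, pw mb p.1 * mb p.2 * (I (Nb my g p.1 < κ) * Pb my g p.1 p.2) ≤
      L * κ + 2 * L ^ (j + 1) * √(√τ) := by
  obtain ⟨n, hn⟩ : ∃ n : G → ℝ, ∀ a, n a = ∑ x, mb x * ν (a + x) := ⟨_, fun _ => rfl⟩
  have hv := var_le hy hb box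
  rw [Im_one] at cnt
  simp only [← hn] at hv cnt
  have h1 : ∀ b : Fin j → G, ∑ x, mb x * Pb my g b x ≤
      L * Nb my g b + L * ∑ a, my a * (|n a - 1| * (L ^ j * ∏ l, ν (a + b l))) := fun b => by
    simp only [Pb, Nb, mul_sum]
    rw [sum_comm, ← sum_add_distrib]
    refine sum_le_sum fun a _ => ?_
    have p0 : 0 ≤ ∏ l, g (a + b l) := prod_nonneg fun _ _ => g0 _
    have q : ∑ x, mb x * (my a * ((∏ l, g (a + b l)) * g (a + x))) ≤
        my a * (∏ l, g (a + b l)) * (L * n a) := by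
      rw [hn, mul_sum, mul_sum]
      refine sum_le_sum fun x _ => ?_
      have := mul_le_mul_of_nonneg_left (gν (a + x)) (mul_nonneg (mul_nonneg (hy.1 a) p0) (hb.1 x))
      linarith
    have r : (∏ l, g (a + b l)) * n a ≤
        (∏ l, g (a + b l)) + |n a - 1| * (L ^ j * ∏ l, ν (a + b l)) := by
      have a1 := mul_le_mul_of_nonneg_left (le_abs_self (n a - 1)) p0
      have a2 := mul_le_mul_of_nonneg_left (prod_le g0 gν b a) (abs_nonneg (n a - 1))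
      linarith
    have := mul_le_mul_of_nonneg_left r (mul_nonneg L0 (hy.1 a))
    linarith
  have h2 : ∑ b : Fin j → G, pw mb b * ∑ a, my a * (|n a - 1| * (L ^ j * ∏ l, ν (a + b l))) =
      L ^ j * ∑ a, my a * (|n a - 1| * n a ^ j) := by
    simp only [mul_sum]
    rw [sum_comm]
    refine sum_congr rfl fun a _ => ?_
    nth_rewrite 3 [hn a]
    rw [Fintype.sum_pow, mul_sum, mul_sum, mul_sum]
    refine sum_congr rfl fun b _ => ?_
    rw [prod_mul_distrib, pw]; ring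
  have h3 : ∑ a, my a * (|n a - 1| * n a ^ j) ≤ 2 * √(√τ) := by
    have c := wcs hy.1 (fun a => |n a - 1|) fun a => n a ^ j
    simp only [sq_abs, ← pow_mul, mul_comm j 2] at c
    have s0 := Real.sqrt_nonneg τ
    have c' := c.trans (mul_le_mul hv cnt
      (sum_nonneg fun a _ => mul_nonneg (hy.1 a) (by rw [pow_mul]; positivity)) s0)
    refine abs_le_of_sq_le_sq' (c'.trans ?_) (by positivity) |>.2
    rw [mul_pow, Real.sq_sqrt s0]; linarith
  rw [Fintype.sum_prod_type]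
  have h4 : ∀ b : Fin j → G, ∑ x, pw mb b * mb x * (I (Nb my g b < κ) * Pb my g b x) ≤
      pw mb b * (L * κ) +
        L * (pw mb b * ∑ a, my a * (|n a - 1| * (L ^ j * ∏ l, ν (a + b l)))) := fun b => by
    have w0 := (pr_pw hb j).1 b
    have t0 : 0 ≤ ∑ a, my a * (|n a - 1| * (L ^ j * ∏ l, ν (a + b l))) :=
      sum_nonneg fun a _ => mul_nonneg (hy.1 a) (mul_nonneg (abs_nonneg _)
        (mul_nonneg (pow_nonneg L0 _) (prod_nonneg fun _ _ => ν0 _)))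
    by_cases c : Nb my g b < κ
    · simp only [I_pos c, one_mul, mul_assoc, ← mul_sum]
      have a1 := mul_le_mul_of_nonneg_left (h1 b) w0
      have a2 := mul_le_mul_of_nonneg_left c.le (mul_nonneg w0 L0)
      simp only [mul_assoc] at a1 a2 ⊢
      linarith
    · simp only [I_neg c, zero_mul, mul_zero, sum_const_zero]
      positivity
  refine (sum_le_sum fun b _ => h4 b).trans ?_
  rw [sum_add_distrib, ← sum_mul, (pr_pw hb j).2, ← mul_sum, h2, one_mul, pow_succ]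
  have := mul_le_mul_of_nonneg_left h3 (mul_nonneg (pow_nonneg L0 j) L0)
  linarith

/-- **step (1)**: a dense set of pairs `(b, x)` with a relative increment -/
theorem one (hy : Pr my) (hb : Pr mb) (g0 : ∀ x, 0 ≤ g x) (gν : ∀ x, g x ≤ L * ν x)
    (ν0 : ∀ x, 0 ≤ ν x) (L1 : 1 ≤ L) {γ τ κ e : ℝ} (hγ : 1 / L ≤ γ) (κ0 : 0 ≤ κ) {Q n : ℕ}
    (Q1 : 1 ≤ Q) (hn : 2 * Q ≤ n) (e1 : e ≤ 1) (he : (1 - e) ^ Q ≤ 1 / 2)
    (hg : γ ^ (Q * Q) ≤ Im my mb g Q Q) (cnt : ∀ k l, k ≤ n → l ≤ n → Im my mb ν k l ≤ 2)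
    (box : ∑ y, ∑ y', my y * my y' *
      (∑ b, mb b * ((ν (y + b) - 1) * (ν (y' + b) - 1))) ^ 2 ≤ τ) :
    ∃ j < Q, 1 / (32 * L ^ (4 * Q ^ 2)) - 4 * L ^ Q * (L * κ + 2 * L ^ Q * √(√τ)) ≤
      ∑ p : (Fin j → G) × G, pw mb p.1 * mb p.2 *
        I (κ ≤ Nb my g p.1 ∧ (1 - e) * γ * Nb my g p.1 ≤ Pb my g p.1 p.2) := by
  classical
  have L0 : 0 < L := one_pos.trans_le L1
  have γ0 : 0 < γ := (one_div_pos.2 L0).trans_le hγ
  have ex : ∃ j, γ ^ (Q * (j + 1)) ≤ Im my mb g Q (j + 1) :=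
    ⟨Q - 1, by rwa [Nat.sub_add_cancel Q1]⟩
  obtain ⟨j, hj⟩ : ∃ j, j = Nat.find ex := ⟨_, rfl⟩
  have j1 : γ ^ (Q * (j + 1)) ≤ Im my mb g Q (j + 1) := hj ▸ Nat.find_spec ex
  have jQ : j < Q := by
    have : Nat.find ex ≤ Q - 1 := Nat.find_min' ex (by rwa [Nat.sub_add_cancel Q1])
    omega
  have j0 : Im my mb g Q j ≤ γ ^ (Q * j) := by
    rcases j with _ | i
    · rw [Im_zero _ _ _ hy]; simp
    · exact (not_le.1 (Nat.find_min ex (by omega))).le
  refine ⟨j, jQ, ?_⟩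
  obtain ⟨c, hc⟩ : ∃ c, c = γ ^ (j + 1) / 4 := ⟨_, rfl⟩
  have c0 : 0 < c := by rw [hc]; positivity
  obtain ⟨W, hW⟩ : ∃ W : (Fin j → G) × G → ℝ, ∀ p, W p = pw mb p.1 * mb p.2 := ⟨_, fun _ => rfl⟩
  have W0 : ∀ p, 0 ≤ W p := fun p => hW p ▸ mul_nonneg ((pr_pw hb j).1 _) (hb.1 _)
  have W1 : ∑ p, W p = 1 := by
    simp only [hW]
    rw [Fintype.sum_prod_type]
    simp only [← mul_sum, hb.2, mul_one, (pr_pw hb j).2]
  have WN : ∑ p, W p * Nb my g p.1 ^ Q = Im my mb g Q j := by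
    simp only [hW]
    rw [Fintype.sum_prod_type, Im]
    refine sum_congr rfl fun b _ => ?_
    simp only [mul_assoc, ← mul_sum, ← sum_mul, hb.2, one_mul]
  have l1 := light hy hb g0 gν ν0 L0.le κ0 (cnt 1 (2 * j) (by omega) (by omega)) box
  have m2 := (Im_le hy hb g0 gν (2 * Q) (j + 1)).trans
    (mul_le_mul_of_nonneg_left (cnt _ _ hn (by omega)) (pow_nonneg L0.le _))
  rw [Im_succ] at j1 m2
  simp only [← hW] at j1 m2 l1 ⊢
  obtain ⟨T, hT⟩ : ∃ T, T = γ ^ (Q * (j + 1)) := ⟨_, rfl⟩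
  have T0 : 0 < T := by rw [hT]; positivity
  rw [← hT] at j1
  obtain ⟨R, hR⟩ : ∃ R : (Fin j → G) × G → Prop, ∀ p, R p ↔
    ((1 - e) * γ * Nb my g p.1 ≤ Pb my g p.1 p.2 ∧ c ≤ Pb my g p.1 p.2) := ⟨_, fun _ => Iff.rfl⟩
  have cQ : c ^ Q ≤ T / 4 := by
    rw [hc, div_pow, ← pow_mul, mul_comm, ← hT]
    refine div_le_div_of_nonneg_left T0.le (by norm_num) ?_
    simpa using pow_le_pow_right₀ (by norm_num : (1 : ℝ) ≤ 4) Q1
  have s1 : T / 4 ≤ ∑ p, W p * (I (R p) * Pb my g p.1 p.2 ^ Q) := by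
    have a : ∀ p, W p * Pb my g p.1 p.2 ^ Q ≤ W p * (I (R p) * Pb my g p.1 p.2 ^ Q) +
        (((1 - e) * γ) ^ Q * (W p * Nb my g p.1 ^ Q) + W p * c ^ Q) := fun p => by
      have P0 := Pb_nonneg hy g0 p.1 p.2
      have N0 := Nb_nonneg hy g0 p.1
      have u0 : 0 ≤ ((1 - e) * γ * Nb my g p.1) ^ Q :=
        pow_nonneg (mul_nonneg (mul_nonneg (sub_nonneg.2 e1) γ0.le) N0) _
      have u1 := pow_nonneg c0.le Q
      rw [mul_left_comm (((1 - e) * γ) ^ Q), ← mul_pow, ← mul_add, ← mul_add]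
      refine mul_le_mul_of_nonneg_left ?_ (W0 p)
      by_cases r : R p
      · rw [I_pos r]; linarith
      · rw [I_neg r, zero_mul, zero_add]
        rw [hR, not_and_or, not_le, not_le] at r
        rcases r with r | r
        · linarith [pow_le_pow_left₀ P0 r.le Q]
        · linarith [pow_le_pow_left₀ P0 r.le Q]
    have b := j1.trans (sum_le_sum fun p _ => a p)
    rw [sum_add_distrib, sum_add_distrib, ← mul_sum, WN, ← sum_mul, W1, one_mul, mul_pow] at b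
    have d : (1 - e) ^ Q * γ ^ Q * Im my mb g Q j ≤ 1 / 2 * T := by
      rw [mul_assoc]
      refine mul_le_mul he ?_ (mul_nonneg (pow_nonneg γ0.le _) ?_) (by norm_num)
      · rw [hT, mul_add, mul_one, pow_add, mul_comm]
        exact mul_le_mul_of_nonneg_right j0 (pow_nonneg γ0.le _)
      · rw [← WN]
        exact sum_nonneg fun p _ => mul_nonneg (W0 p) (pow_nonneg (Nb_nonneg hy g0 _) _)
    linarith
  have s2 : 1 / (32 * L ^ (4 * Q ^ 2)) ≤ ∑ p, W p * I (R p) := by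
    have a := wcs W0 (fun p => I (R p)) fun p => Pb my g p.1 p.2 ^ Q
    have e : ∀ p, I (R p) ^ 2 = I (R p) := fun p => by unfold I; split_ifs <;> norm_num
    simp only [e, ← pow_mul, mul_comm Q 2] at a
    have M0 : 0 ≤ ∑ p, W p * I (R p) := sum_nonneg fun p _ => mul_nonneg (W0 p) (I_nonneg _)
    have b := (pow_le_pow_left₀ (by positivity) s1 2).trans
      (a.trans (mul_le_mul_of_nonneg_left m2 M0))
    have t1 : 1 ≤ T * L ^ (Q ^ 2) := by
      have : 1 ≤ γ * L := by rwa [div_le_iff₀ L0] at hγ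
      calc (1 : ℝ) ≤ (γ * L) ^ (Q * (j + 1)) := one_le_pow₀ this
        _ = T * L ^ (Q * (j + 1)) := by rw [mul_pow, hT]
        _ ≤ _ := mul_le_mul_of_nonneg_left (pow_le_pow_right₀ L1 (by nlinarith)) T0.le
    have t2 : L ^ (2 * Q * (j + 1)) ≤ (L ^ (Q ^ 2)) ^ 2 := by
      rw [← pow_mul]; exact pow_le_pow_right₀ L1 (by nlinarith)
    obtain ⟨U, hU⟩ : ∃ U, U = L ^ (Q ^ 2) := ⟨_, rfl⟩
    have U0 : 0 < U := by rw [hU]; positivity
    rw [mul_comm 4, pow_mul, ← hU, div_le_iff₀ (by positivity)]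
    rw [← hU] at t1 t2
    have t3 : (T / 4) ^ 2 ≤ (∑ p, W p * I (R p)) * (U ^ 2 * 2) :=
      b.trans (mul_le_mul_of_nonneg_left (by linarith) M0)
    have t4 : 1 ≤ (T * U) ^ 2 := one_le_pow₀ t1
    have t5 := mul_le_mul_of_nonneg_right t3 (by positivity : 0 ≤ 16 * U ^ 2)
    nlinarith
  have s3 : ∀ p, W p * I (R p) ≤
      W p * I (κ ≤ Nb my g p.1 ∧ (1 - e) * γ * Nb my g p.1 ≤ Pb my g p.1 p.2) +
        1 / c * (W p * (I (Nb my g p.1 < κ) * Pb my g p.1 p.2)) := fun p => by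
    rw [mul_left_comm, ← mul_add]
    refine mul_le_mul_of_nonneg_left ?_ (W0 p)
    have u0 : 0 ≤ 1 / c * (I (Nb my g p.1 < κ) * Pb my g p.1 p.2) :=
      mul_nonneg (by positivity) (mul_nonneg (I_nonneg _) (Pb_nonneg hy g0 _ _))
    by_cases r : R p
    · rw [I_pos r]
      obtain ⟨r1, r2⟩ := (hR p).1 r
      by_cases k : Nb my g p.1 < κ
      · rw [I_pos k, one_mul, one_div, ← div_eq_inv_mul]
        linarith [(one_le_div c0).2 r2, I_nonneg (κ ≤ Nb my g p.1 ∧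
          (1 - e) * γ * Nb my g p.1 ≤ Pb my g p.1 p.2)]
      · rw [I_pos ⟨not_lt.1 k, r1⟩]; linarith
    · rw [I_neg r]; exact add_nonneg (I_nonneg _) u0
  have s4 := s2.trans (sum_le_sum fun p _ => s3 p)
  rw [sum_add_distrib, ← mul_sum] at s4
  have s5 : 1 / c ≤ 4 * L ^ Q := by
    have : 1 ≤ γ * L := by rwa [div_le_iff₀ L0] at hγ
    rw [div_le_iff₀ c0, hc]
    calc (1 : ℝ) ≤ (γ * L) ^ (j + 1) := one_le_pow₀ this
      _ = γ ^ (j + 1) * L ^ (j + 1) := mul_pow ..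
      _ ≤ γ ^ (j + 1) * L ^ Q :=
        mul_le_mul_of_nonneg_left (pow_le_pow_right₀ L1 jQ) (by positivity)
      _ = _ := by ring
  have s6 : L * κ + 2 * L ^ (j + 1) * √(√τ) ≤ L * κ + 2 * L ^ Q * √(√τ) := by
    have := mul_le_mul_of_nonneg_right (pow_le_pow_right₀ L1 (show j + 1 ≤ Q by omega))
      (Real.sqrt_nonneg (√τ))
    linarith
  have s7 := mul_le_mul s5 (l1.trans s6) (sum_nonneg fun p _ => mul_nonneg (W0 p)
    (mul_nonneg (I_nonneg _) (Pb_nonneg hy g0 _ _))) (by positivity)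
  linarith

end Crest.Agent.N49.Km.K1
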