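import Crest.Agent.N49.Km.Fin

/-!
# Row 49 (helper70): truncation of laws on an infinite group and finite models
-/

set_option autoImplicit false
set_option linter.unusedSectionVars false
open Finset Filter Topology

namespace Crest.Agent.N49.Km
open L

variable {Λ G : Type} [AddCommGroup Λ] [DecidableEq Λ] [AddCommGroup G] [Fintype G] [DecidableEq G]

/-- probability weights on an infinite set -/
def PrZ {Λ : Type} (μ : Λ → ℝ) : Prop := (∀ x, 0 ≤ μ x) ∧ HasSum μ 1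

/-- the weight of a bipartite grid -/
def gw {Λ : Type} [Add Λ] (μ β f : Λ → ℝ) (k l : ℕ) (q : (Fin k → Λ) × (Fin l → Λ)) : ℝ :=
  (∏ i, μ (q.1 i)) * (∏ j, β (q.2 j)) * ∏ i, ∏ j, f (q.1 i + q.2 j)

/-- the pseudorandomness condition -/
def LFZ {Λ : Type} [Add Λ] (μ β ν : Λ → ℝ) (n : ℕ) (τ : ℝ) : Prop :=
  (∀ k ≤ n, ∀ l ≤ n, ∃ s ≤ (3 / 2 : ℝ), HasSum (gw μ β ν k l) s) ∧
    ∃ s ≤ τ, HasSum (gw μ β (fun x => ν x - 1) 2 2) s

/-- total variation under a shift -/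
noncomputable def tvZ {Λ : Type} [Add Λ] (w : Λ → ℝ) (t : Λ) : ℝ := ∑' x, |w (x + t) - w x|

/-- the law of `u - v + x` -/
noncomputable def cvZ {Λ : Type} [AddCommGroup Λ] (ma mv mb : Λ → ℝ) (p : Λ) : ℝ :=
  ∑' v, mv v * ∑' x, mb x * ma (p + v - x)

/-- truncation -/
noncomputable def tr (S : Finset Λ) (μ : Λ → ℝ) (y : Λ) : ℝ :=
  if y ∈ S then μ y / ∑ x ∈ S, μ x else 0

/-- image in the finite model -/
def pu (π : Λ →+ G) (S : Finset Λ) (f : Λ → ℝ) (x : G) : ℝ := ∑ y ∈ S, if π y = x then f y else 0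

variable {π : Λ →+ G} {S T Ω : Finset Λ} {μ β f : Λ → ℝ}

theorem PrZ.le_one (h : PrZ μ) (S : Finset Λ) : ∑ x ∈ S, μ x ≤ 1 :=
  sum_le_hasSum S (fun x _ => h.1 x) h.2

theorem PrZ.le_one' (h : PrZ μ) (x : Λ) : μ x ≤ 1 := by simpa using h.le_one {x}

theorem PrZ.shift (h : PrZ μ) (t : Λ) : HasSum (fun x => μ (x + t)) 1 :=
  (Equiv.addRight t).hasSum_iff.2 h.2

theorem PrZ.sum_tv (h : PrZ μ) (t : Λ) : Summable fun x => |μ (x + t) - μ x| :=
  ((h.shift t).summable.sub h.2.summable).abs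

theorem tvZ_nonneg (w : Λ → ℝ) (t : Λ) : 0 ≤ tvZ w t := tsum_nonneg fun _ => abs_nonneg _

theorem PrZ.tv_le (h : PrZ μ) (t : Λ) : tvZ μ t ≤ 2 :=
  (hasSum_le (fun x => (abs_sub _ _).trans_eq (by rw [abs_of_nonneg (h.1 _), abs_of_nonneg (h.1 _)]))
    (h.sum_tv t).hasSum ((h.shift t).add h.2)).trans_eq (by norm_num)

theorem tr_nonneg (h : PrZ μ) (S : Finset Λ) (y : Λ) : 0 ≤ tr S μ y := by
  unfold tr; split_ifs
  exacts [div_nonneg (h.1 y) (sum_nonneg fun x _ => h.1 x), le_rfl]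

theorem sum_tr (m : 0 < ∑ x ∈ S, μ x) : ∑ y ∈ S, tr S μ y = 1 := by
  rw [sum_congr rfl fun y hy => show tr S μ y = _ from if_pos hy, ← sum_div, div_self m.ne']

theorem tr_le (h : PrZ μ) (m : 3 / 4 ≤ ∑ x ∈ S, μ x) (y : Λ) : tr S μ y ≤ 4 / 3 * μ y := by
  have := h.1 y
  unfold tr; split_ifs
  · rw [div_le_iff₀ (by linarith)]; nlinarith
  · linarith

theorem le_tr (h : PrZ μ) (m : 0 < ∑ x ∈ S, μ x) {y : Λ} (hy : y ∈ S) : μ y ≤ tr S μ y := by
  rw [tr, if_pos hy, le_div_iff₀ m]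
  exact mul_le_of_le_one_right (h.1 y) (h.le_one S)

/-- truncation is small in `L¹` -/
theorem tr_l1 (h : PrZ μ) (m : 0 < ∑ x ∈ S, μ x) (T : Finset Λ) :
    ∑ y ∈ T, |tr S μ y - μ y| ≤ 2 * (1 - ∑ x ∈ S, μ x) := by
  refine (sum_le_sum_of_subset_of_nonneg (subset_union_left (s₂ := S)) fun _ _ _ =>
    abs_nonneg _).trans ?_
  rw [← sdiff_union_self_eq_union, sum_union sdiff_disjoint,
    sum_congr rfl fun y hy => show |tr S μ y - μ y| = μ y by
      rw [tr, if_neg (mem_sdiff.1 hy).2, zero_sub, abs_neg, abs_of_nonneg (h.1 y)],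
    sum_congr rfl fun y hy => abs_of_nonneg (sub_nonneg.2 (le_tr h m hy)), sum_sub_distrib, sum_tr m]
  have := h.le_one (T \ S ∪ S)
  rw [sum_union sdiff_disjoint] at this
  linarith

theorem sum_pu (F : G → ℝ) : Ex (pu π S f) F = ∑ y ∈ S, f y * F (π y) := by
  simp only [Ex, pu, sum_mul]
  rw [sum_comm]
  simp

theorem pu_nonneg (h : ∀ y, 0 ≤ f y) (x : G) : 0 ≤ pu π S f x :=
  sum_nonneg fun y _ => by split_ifs; exacts [h y, le_rfl]

theorem pr_pu (h : PrZ μ) (m : 0 < ∑ x ∈ S, μ x) : Pr (pu π S (tr S μ)) :=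
  ⟨pu_nonneg (tr_nonneg h S), by simpa [Ex, sum_tr m] using sum_pu (π := π) (S := S) (f := tr S μ) 1⟩

theorem pu_apply (i : Set.InjOn π Ω) {y : Λ} (hy : y ∈ Ω) : pu π Ω f (π y) = f y := by
  rw [pu, sum_eq_single y (fun z hz c => if_neg fun e => c (i hz hy e)) fun c => absurd hy c,
    if_pos rfl]

theorem pu_sub (h : S ⊆ Ω) (k : ∀ y ∉ S, f y = 0) : pu π S f = pu π Ω f :=
  funext fun _ => sum_subset h fun y _ c => by simp [k y c]

theorem pu_tr (i : Set.InjOn π Ω) (h : S ⊆ Ω) {y : Λ} (hy : y ∈ Ω) :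
    pu π S (tr S μ) (π y) = tr S μ y := by
  rw [pu_sub (f := tr S μ) h fun y c => if_neg c, pu_apply i hy]

theorem pu_ne {x : G} (h : pu π S f x ≠ 0) : ∃ y ∈ S, π y = x := by
  obtain ⟨y, hy, c⟩ := exists_ne_zero_of_sum_ne_zero h
  exact ⟨y, hy, by by_contra e; exact c (if_neg e)⟩

theorem tv_tr (h : PrZ μ) (m : 0 < ∑ x ∈ S, μ x) (t : Λ) (T : Finset Λ) :
    ∑ y ∈ T, |tr S μ (y + t) - tr S μ y| ≤ tvZ μ t + 4 * (1 - ∑ x ∈ S, μ x) := by
  have a := tr_l1 h m T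
  have b := tr_l1 h m (T.map (Equiv.addRight t).toEmbedding)
  rw [sum_map] at b
  have c : ∑ y ∈ T, |μ (y + t) - μ y| ≤ tvZ μ t :=
    (h.sum_tv t).sum_le_tsum T fun _ _ => abs_nonneg _
  refine le_trans (sum_le_sum fun y _ => ?_) (show ∑ y ∈ T, (|tr S μ (y + t) - μ (y + t)| +
    |μ (y + t) - μ y| + |tr S μ y - μ y|) ≤ _ by
      simp only [sum_add_distrib]; simp only [Equiv.coe_toEmbedding, Equiv.coe_addRight] at b
      linarith)
  rw [abs_sub_comm (tr S μ y) (μ y)]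
  exact (abs_sub_le _ (μ y) _).trans (add_le_add (abs_sub_le _ _ _) le_rfl)

theorem tv_pu (h : PrZ μ) (m : 0 < ∑ x ∈ S, μ x) (t : Λ) :
    Lo.tv (pu π S (tr S μ)) (π t) ≤ tvZ μ t + 4 * (1 - ∑ x ∈ S, μ x) := by
  set T := S ∪ S.map (Equiv.subRight t).toEmbedding
  have e1 : ∀ x, pu π S (tr S μ) (x + π t) =
      ∑ y ∈ T, if π y = x then tr S μ (y + t) else 0 := fun x => by
    rw [← sum_subset (subset_union_right (s₁ := S)) fun y _ c => ?_, sum_map, pu]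
    · refine sum_congr rfl fun y _ => ?_
      simp [sub_eq_iff_eq_add]
    · rw [tr, if_neg fun k => c (mem_map.2 ⟨_, k, by simp⟩), ite_self]
  refine le_trans ?_ (tv_tr h m t T)
  simp only [Lo.tv, e1]
  rw [pu_sub (f := tr S μ) (subset_union_left : S ⊆ T) fun y c => if_neg c]
  calc _ ≤ ∑ x, ∑ y ∈ T, if π y = x then |tr S μ (y + t) - tr S μ y| else 0 :=
        sum_le_sum fun x _ => by
          rw [pu, ← sum_sub_distrib]
          refine (abs_sum_le_sum_abs _ _).trans (le_of_eq (sum_congr rfl fun y _ => ?_))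
          split_ifs <;> simp
    _ = _ := by rw [sum_comm]; simp

theorem Ex_ip_pu (k : ℕ) (F : (Fin k → G) → ℝ) : Ex (ip (pu π S f) k) F =
    ∑ a ∈ Fintype.piFinset fun _ : Fin k => S, (∏ i, f (a i)) * F fun i => π (a i) := by
  simp only [Ex, ip, pw, pu, prod_univ_sum, sum_mul]
  rw [sum_comm]
  refine sum_congr rfl fun a _ => ?_
  rw [sum_eq_single (fun i => π (a i)) (fun z _ c => ?_) (by simp)]
  · simp
  · obtain ⟨i, hi⟩ := Function.ne_iff.1 c
    rw [prod_eq_zero (mem_univ i) (if_neg hi.symm), zero_mul]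

/-- the finite part of the grid -/
def bx (S T : Finset Λ) (k l : ℕ) : Finset ((Fin k → Λ) × (Fin l → Λ)) :=
  (Fintype.piFinset fun _ => S) ×ˢ Fintype.piFinset fun _ => T

theorem GC_pu {F : G → ℝ} (hF : ∀ a ∈ S, ∀ b ∈ T, F (π a + π b) = f (a + b)) (k l : ℕ) :
    GC (pu π S (tr S μ)) (pu π T (tr T β)) (ak F) k l =
      (∑ q ∈ bx S T k l, gw μ β f k l q) / ((∑ x ∈ S, μ x) ^ k * (∑ x ∈ T, β x) ^ l) := by
  simp only [GC, Ex_ip_pu, bx, sum_product, sum_div, mul_sum]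
  refine sum_congr rfl fun a ha => sum_congr rfl fun b hb => ?_
  rw [Fintype.mem_piFinset] at ha hb
  simp only [tr, ha, hb, if_true, ak, hF _ (ha _) _ (hb _), gw, prod_div_distrib, prod_const,
    card_univ, Fintype.card_fin]
  ring

/-- exhausting sequences -/
def Exh {α : Type*} (S : ℕ → Finset α) : Prop := ∀ x, ∀ᶠ R in atTop, x ∈ S R

theorem Exh.tendsto {α : Type*} {S : ℕ → Finset α} (h : Exh S) {f : α → ℝ} {s : ℝ}
    (hf : HasSum f s) : Tendsto (fun R => ∑ x ∈ S R, f x) atTop (𝓝 s) :=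
  Tendsto.comp (g := fun S : Finset α => ∑ x ∈ S, f x) hf (tendsto_atTop.2 fun s =>
    ((eventually_all_finset s).2 fun x _ => h x).mono fun _ k _ hx => k _ hx)

theorem Exh.bx {S T : ℕ → Finset Λ} (hS : Exh S) (hT : Exh T) (k l : ℕ) :
    Exh fun R => bx (S R) (T R) k l := fun q =>
  ((eventually_all.2 fun i => hS (q.1 i)).and (eventually_all.2 fun j => hT (q.2 j))).mono
    fun _ h => mem_product.2 ⟨Fintype.mem_piFinset.2 h.1, Fintype.mem_piFinset.2 h.2⟩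

theorem gw_nonneg (hμ : PrZ μ) (hβ : PrZ β) (h : ∀ x, 0 ≤ f x) (k l : ℕ)
    (q : (Fin k → Λ) × (Fin l → Λ)) : 0 ≤ gw μ β f k l q :=
  mul_nonneg (mul_nonneg (prod_nonneg fun _ _ => hμ.1 _) (prod_nonneg fun _ _ => hβ.1 _))
    (prod_nonneg fun _ _ => prod_nonneg fun _ _ => h _)

/-- the condition `LF` in the finite models -/
theorem LFZ.ev {S T : ℕ → Finset Λ} (hS : Exh S) (hT : Exh T) (hμ : PrZ μ) (hβ : PrZ β)
    (f0 : ∀ x, 0 ≤ f x) {n : ℕ} {τ τ' : ℝ} (h : LFZ μ β f n τ) (lt : τ < τ') :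
    ∀ᶠ R in atTop, ∀ (G : Type) [AddCommGroup G] [Fintype G] [DecidableEq G] (π : Λ →+ G)
      (F : G → ℝ), (∀ a ∈ S R, ∀ b ∈ T R, F (π a + π b) = f (a + b)) →
        LF (pu π (S R) (tr (S R) μ)) (pu π (T R) (tr (T R) β)) (ak F) n τ' := by
  obtain ⟨h1, s, hs, h2⟩ := h
  have m := fun k l : ℕ => ((hS.tendsto hμ.2).pow k).mul ((hT.tendsto hβ.2).pow l)
  simp only [one_pow, mul_one] at m
  have a := ((hS.bx hT 2 2).tendsto h2).div (m 2 2) one_ne_zero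
  rw [div_one] at a
  filter_upwards [a.eventually (gt_mem_nhds (hs.trans_lt lt)),
    (m n n).eventually (lt_mem_nhds (show (3 / 4 : ℝ) < 1 by norm_num))] with R e1 e2 G _ _ _ π F hF
  refine ⟨fun k hk l hl => ?_, ?_⟩
  · obtain ⟨s, hs, h⟩ := h1 k hk l hl
    have := sum_le_hasSum (bx (S R) (T R) k l) (fun q _ => gw_nonneg hμ hβ f0 k l q) h
    have s0 := sum_nonneg fun x (_ : x ∈ S R) => hμ.1 x
    have t0 := sum_nonneg fun x (_ : x ∈ T R) => hβ.1 x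
    have := mul_le_mul (pow_le_pow_of_le_one s0 (hμ.le_one _) hk)
      (pow_le_pow_of_le_one t0 (hβ.le_one _) hl) (by positivity) (by positivity)
    rw [GC_pu hF, div_le_iff₀ (by linarith)]
    linarith
  · have := GC_pu (π := π) (S := S R) (T := T R) (μ := μ) (β := β) (f := fun x => f x - 1)
      (F := fun x => F x - 1) (fun a ha b hb => by rw [hF a ha b hb]) 2 2
    rw [GC_two] at this
    exact this.trans_le e1.le

end Crest.Agent.N49.Km
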