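import Crest.Agent.N49.L.Ex

/-!
# Row 49 (helper70): bipartite grid counts, removal of a pseudorandom majorant
-/

set_option autoImplicit false
set_option linter.unusedSectionVars false
open Finset

namespace Crest.Agent.N49.Km
open L

variable {Y X Ξ : Type*} [Fintype Y] [Fintype X] [Fintype Ξ]

/-- independent samples -/
def ip (μ : X → ℝ) (n : ℕ) : (Fin n → X) → ℝ := pw fun _ => μ

/-- bipartite grid count -/
def GC (μ : Y → ℝ) (β : X → ℝ) (f : Y → X → ℝ) (k l : ℕ) : ℝ :=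
  Ex (ip μ k) fun a => Ex (ip β l) fun b => ∏ i, ∏ j, f (a i) (b j)

/-- codegree -/
def Kn (β : X → ℝ) (ν : Y → X → ℝ) (y y' : Y) : ℝ := Ex β fun b => ν y b * ν y' b

/-- the pseudorandomness condition on the majorant -/
def LF (μ : Y → ℝ) (β : X → ℝ) (ν : Y → X → ℝ) (n : ℕ) (τ : ℝ) : Prop :=
  (∀ k ≤ n, ∀ l ≤ n, GC μ β ν k l ≤ 2) ∧
    (Ex μ fun y => Ex μ fun y' => Ex β (fun b => (ν y b - 1) * (ν y' b - 1)) ^ 2) ≤ τ

variable {μ : Y → ℝ} {β : X → ℝ} {w : Ξ → ℝ} {f ν : Y → X → ℝ}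

theorem pr_ip (h : Pr β) (n : ℕ) : Pr (ip β n) := Pr.pw fun _ => h

theorem Ex_ip (β φ : X → ℝ) (n : ℕ) : Ex (ip β n) (fun b => ∏ j, φ (b j)) = Ex β φ ^ n := by
  rw [ip, Ex_prod (fun _ => β) fun _ => φ, prod_const, card_univ, Fintype.card_fin]

theorem GC_left (k l : ℕ) :
    GC μ β f k l = Ex (ip μ k) fun a => Ex β (fun b => ∏ i, f (a i) b) ^ l := by
  unfold GC; congr 1; funext a
  rw [← Ex_ip]; congr 1; funext b; exact prod_comm

theorem GC_right (k l : ℕ) :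
    GC μ β f k l = Ex (ip β l) fun b => Ex μ (fun a => ∏ j, f a (b j)) ^ k := by
  unfold GC; rw [Ex_comm]; congr 1; funext b
  exact Ex_ip μ (fun a => ∏ j, f a (b j)) k

theorem Ex_cons (β : X → ℝ) (n : ℕ) (F : (Fin (n + 1) → X) → ℝ) :
    Ex (ip β (n + 1)) F = Ex (ip β n) fun b => Ex β fun x => F (Fin.cons x b) := by
  rw [Ex_comm]
  unfold Ex
  rw [← (Fin.consEquiv fun _ => X).sum_comp, Fintype.sum_prod_type]
  refine sum_congr rfl fun x _ => ?_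
  rw [mul_sum]
  refine sum_congr rfl fun b _ => ?_
  simp only [ip, pw, Fin.prod_univ_succ, Fin.consEquiv_apply, Fin.cons_zero, Fin.cons_succ,
    mul_assoc]
  rfl

theorem Ex_zero (β : X → ℝ) (F : (Fin 0 → X) → ℝ) : Ex (ip β 0) F = F Fin.elim0 := by
  simp only [Ex, ip, pw, univ_unique, sum_singleton, prod_empty, univ_eq_empty, one_mul]
  congr 1

theorem GC_one (l : ℕ) : GC μ β f 1 l = Ex μ fun y => Ex β (f y) ^ l := by
  rw [GC_left, Ex_cons, Ex_zero]; simp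

theorem GC_two (l : ℕ) : GC μ β f 2 l = Ex μ fun y => Ex μ fun y' => Kn β f y y' ^ l := by
  rw [GC_left, Ex_cons, Ex_cons, Ex_zero, Ex_comm]; simp [Kn, Fin.prod_univ_succ]

theorem GC_mono (hμ : Pr μ) (hβ : Pr β) {M : ℝ} (f0 : ∀ y b, 0 ≤ f y b)
    (h : ∀ y b, f y b ≤ M * ν y b) (k l : ℕ) : GC μ β f k l ≤ M ^ (k * l) * GC μ β ν k l := by
  unfold GC
  rw [← Ex_mul]
  refine (pr_ip hμ k).mono fun a => ?_
  rw [← Ex_mul]
  refine (pr_ip hβ l).mono fun b => ?_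
  calc _ ≤ ∏ i : Fin k, ∏ j : Fin l, M * ν (a i) (b j) :=
        prod_le_prod (fun _ _ => prod_nonneg fun _ _ => f0 _ _) fun _ _ =>
          prod_le_prod (fun _ _ => f0 _ _) fun _ _ => h _ _
    _ = _ := by simp [prod_mul_distrib, ← pow_mul, mul_comm]

theorem sq_Ex (h : Pr β) (F : X → ℝ) : Ex β F ^ 2 ≤ Ex β fun x => F x ^ 2 := by
  simpa [h.const] using h.jensen (R := fun _ => 1) (T := F) (fun _ => zero_le_one) (Q := 1)
    (by decide)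

theorem Ex_mul_Ex (F : Y → ℝ) (G : X → ℝ) :
    Ex μ F * Ex β G = Ex μ fun y => Ex β fun x => F y * G x := by
  rw [← Ex_mul']; congr 1; funext y; rw [Ex_mul]

theorem Ex_sel (hβ : Pr β) {n : ℕ} {l : Fin n} {s : Finset (Fin n)} (hl : l ∉ s) (φ ψ : X → ℝ) :
    Ex (ip β n) (fun b => φ (b l) * ∏ j ∈ s, ψ (b j)) = Ex β φ * Ex β ψ ^ #s := by
  have k : ∀ u v : Fin n → ℝ, ∏ j, (if j = l then u j else if j ∈ s then v j else 1) =
      u l * ∏ j ∈ s, v j := fun u v => by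
    rw [← mul_prod_erase _ _ (mem_univ l), if_pos rfl, prod_congr rfl fun j hj =>
      if_neg (ne_of_mem_erase hj), prod_ite_mem, inter_eq_right.2 fun j hj =>
        mem_erase.2 ⟨fun e : j = l => hl (e ▸ hj), mem_univ _⟩]
  have := Ex_prod (fun _ : Fin n => β) fun j x => if j = l then φ x else if j ∈ s then ψ x else 1
  simp only [k] at this
  rw [ip, this, ← prod_const, ← k (fun _ => Ex β φ) fun _ => Ex β ψ]
  refine prod_congr rfl fun j _ => ?_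
  split_ifs
  exacts [rfl, rfl, hβ.const 1]

theorem Kn_nonneg (hβ : Pr β) (ν0 : ∀ y b, 0 ≤ ν y b) (y y' : Y) : 0 ≤ Kn β ν y y' :=
  hβ.nonneg fun _ => mul_nonneg (ν0 _ _) (ν0 _ _)

theorem rem1 (hμ : Pr μ) (hβ : Pr β) (hw : Pr w) (ν0 : ∀ y b, 0 ≤ ν y b) {n r N : ℕ} {τ δ K : ℝ}
    (h : LF μ β ν N τ) (hN : 2 * (n + r + 1) ≤ N) {Γ : Y → Ξ → ℝ}
    (hΓ : ∀ y y', |Ex w fun ξ => Γ y ξ * Γ y' ξ| ≤ Kn β ν y y' ^ r) {B : (Fin n → X) → Ξ → ℝ}
    (hB : ∀ b ξ, |B b ξ| ≤ K) (K0 : 0 ≤ K) (δ0 : 0 < δ) (hτ : 2 * τ ≤ δ ^ 4) {l : Fin n}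
    {s : Finset (Fin n)} (hl : l ∉ s) :
    |Ex (ip β n) fun b => Ex w fun ξ => B b ξ *
      Ex μ fun y => (ν y (b l) - 1) * (∏ j ∈ s, ν y (b j)) * Γ y ξ| ≤ K * δ := by
  refine abs_le_of_sq_le_sq' ?_ (by positivity) |> abs_le.2
  have hp := pr_ip hβ n
  set Φ : Y → (Fin n → X) → Ξ → ℝ := fun y b ξ => (ν y (b l) - 1) * (∏ j ∈ s, ν y (b j)) * Γ y ξ
  have a : (Ex (ip β n) fun b => Ex w fun ξ => B b ξ * Ex μ fun y => Φ y b ξ) ^ 2 ≤
      K ^ 2 * Ex (ip β n) fun b => Ex w fun ξ => Ex μ fun y => Ex μ fun y' =>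
        Φ y b ξ * Φ y' b ξ := by
    refine (sq_Ex hp _).trans ?_
    rw [← Ex_mul]
    refine hp.mono fun b => (sq_Ex hw _).trans ?_
    rw [← Ex_mul]
    refine hw.mono fun ξ => ?_
    rw [← Ex_mul_Ex, ← sq, mul_pow]
    exact mul_le_mul_of_nonneg_right (sq_le_sq' (abs_le.1 (hB b ξ)).1 (abs_le.1 (hB b ξ)).2)
      (sq_nonneg _)
  refine a.trans ?_
  rw [mul_pow]
  refine mul_le_mul_of_nonneg_left ?_ (sq_nonneg _)
  have e : (Ex (ip β n) fun b => Ex w fun ξ => Ex μ fun y => Ex μ fun y' =>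
      Φ y b ξ * Φ y' b ξ) = Ex μ fun y => Ex μ fun y' =>
        Ex β (fun b => (ν y b - 1) * (ν y' b - 1)) * Kn β ν y y' ^ #s *
          Ex w fun ξ => Γ y ξ * Γ y' ξ := by
    simp only [fun b => Ex_comm (μ := w) (ν := μ) fun ξ y => Ex μ fun y' => Φ y b ξ * Φ y' b ξ]
    rw [Ex_comm]; congr 1; funext y
    simp only [fun b => Ex_comm (μ := w) (ν := μ) fun ξ y' => Φ y b ξ * Φ y' b ξ]
    rw [Ex_comm]; congr 1; funext y'
    rw [Kn, ← Ex_sel hβ hl, Ex_mul_Ex]; congr 1; funext b; congr 1; funext ξ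
    simp only [Φ, prod_mul_distrib]; ring
  have hs : #s ≤ n := (card_le_univ s).trans_eq (Fintype.card_fin n)
  have g := h.1 2 (by omega) (2 * (#s + r)) (by omega)
  rw [GC_two] at g
  rw [e]
  calc _ ≤ Ex μ fun y => Ex μ fun y' => 1 / δ ^ 2 *
        Ex β (fun b => (ν y b - 1) * (ν y' b - 1)) ^ 2 + δ ^ 2 / 4 * Kn β ν y y' ^ (2 * (#s + r)) :=
        hμ.mono fun y => hμ.mono fun y' => ?_
    _ ≤ 1 / δ ^ 2 * τ + δ ^ 2 / 4 * 2 := by
      simp only [Ex_add, Ex_mul]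
      exact add_le_add (mul_le_mul_of_nonneg_left h.2 (by positivity))
        (mul_le_mul_of_nonneg_left g (by positivity))
    _ ≤ _ := by
      have : 1 / δ ^ 2 * τ ≤ δ ^ 2 / 2 := by
        rw [one_div, inv_mul_le_iff₀ (by positivity)]; nlinarith
      linarith
  set U := Ex β fun b => (ν y b - 1) * (ν y' b - 1)
  have k0 := Kn_nonneg hβ ν0 y y'
  calc _ ≤ |U * Kn β ν y y' ^ #s * Ex w fun ξ => Γ y ξ * Γ y' ξ| := le_abs_self _
    _ ≤ |U| * Kn β ν y y' ^ #s * Kn β ν y y' ^ r := by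
      rw [abs_mul, abs_mul, abs_of_nonneg (pow_nonneg k0 _)]
      exact mul_le_mul_of_nonneg_left (hΓ y y') (by positivity)
    _ ≤ _ := by
      rw [mul_assoc, ← pow_add, mul_comm 2, pow_mul, ← sq_abs U]
      have := sq_nonneg (|U| / δ - δ / 2 * Kn β ν y y' ^ (#s + r))
      have e2 : (|U| / δ - δ / 2 * Kn β ν y y' ^ (#s + r)) ^ 2 = 1 / δ ^ 2 * |U| ^ 2 +
          δ ^ 2 / 4 * (Kn β ν y y' ^ (#s + r)) ^ 2 - |U| * Kn β ν y y' ^ (#s + r) := by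
        field_simp; ring
      linarith

/-- **removal of the majorant** -/
theorem rem (hμ : Pr μ) (hβ : Pr β) (hw : Pr w) (ν0 : ∀ y b, 0 ≤ ν y b) {n r N : ℕ} {τ δ K : ℝ}
    (h : LF μ β ν N τ) (hN : 2 * (n + r + 1) ≤ N) {Γ : Y → Ξ → ℝ}
    (hΓ : ∀ y y', |Ex w fun ξ => Γ y ξ * Γ y' ξ| ≤ Kn β ν y y' ^ r) {B : (Fin n → X) → Ξ → ℝ}
    (hB : ∀ b ξ, |B b ξ| ≤ K) (K0 : 0 ≤ K) (δ0 : 0 < δ) (hτ : 2 * τ ≤ δ ^ 4) :
    (Ex (ip β n) fun b => Ex w fun ξ => B b ξ * Ex μ fun y => (∏ j, ν y (b j)) * Γ y ξ) ≤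
      (Ex (ip β n) fun b => Ex w fun ξ => B b ξ * Ex μ fun y => Γ y ξ) + n * (K * δ) := by
  have t : ∀ (y : Y) (b : Fin n → X) (ξ : Ξ), (∏ j, ν y (b j)) * Γ y ξ = Γ y ξ +
      ∑ l, (ν y (b l) - 1) * (∏ j ∈ univ.filter (· < l), ν y (b j)) * Γ y ξ := fun y b ξ => by
    have := prod_add_ordered univ (fun _ : Fin n => (1 : ℝ)) fun l => ν y (b l) - 1
    simp only [add_sub_cancel, prod_const_one, mul_one] at this
    rw [this, add_mul, one_mul, sum_mul]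
  simp only [t, Ex_add, mul_add, Ex_sum, mul_sum]
  refine add_le_add le_rfl ((sum_le_card_nsmul _ _ (K * δ) fun l _ => (le_abs_self _).trans
    (rem1 hμ hβ hw ν0 h hN hΓ hB K0 δ0 hτ (by simp))).trans_eq (by simp))

end Crest.Agent.N49.Km
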