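import Crest.Agent.N49.Km.Pu
import Crest.Agent.N49.Lo.Push

/-!
# Row 49 (helper70): the relative Kelley–Meka step on `ℤ^d`
-/

set_option autoImplicit false
set_option linter.unusedSectionVars false
open Finset Filter Topology

namespace Crest.Agent.N49.Km
open L Po

variable {d : Type} [Fintype d] [DecidableEq d]

/-- boxes -/
noncomputable def box (d : Type) [Fintype d] [DecidableEq d] (R : ℕ) : Finset (d → ℤ) :=
  Fintype.piFinset fun _ => Icc (-R : ℤ) R

theorem mem_box {R : ℕ} {x : d → ℤ} : x ∈ box d R ↔ ∀ i, -(R : ℤ) ≤ x i ∧ x i ≤ R := by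
  simp [box]

theorem exh_box {c : ℕ} (hc : 1 ≤ c) : Exh fun R => box d (c * R) := fun x => by
  simp only [mem_box]
  refine eventually_all.2 fun i => (eventually_ge_atTop (x i).natAbs).mono fun R h => ?_
  have := Nat.le_mul_of_pos_left R hc
  omega

theorem inj_box (R : ℕ) : Set.InjOn (Lo.pz d (2 * R + 1)) (box d R) := fun x hx y hy e => by
  funext i
  have := (ZMod.intCast_eq_intCast_iff_dvd_sub (x i) (y i) (2 * R + 1)).1 (congrFun e i)
  have a := mem_box.1 hx i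
  have b := mem_box.1 hy i
  have := Int.eq_zero_of_abs_lt_dvd this (by rw [abs_lt]; push_cast; omega)
  omega

theorem two_pow_69 {P : ℕ} (h : 8 ≤ P) : (256 : ℝ) * (1 / 2 ^ P ^ 69) ≤ 1 / 2 ^ P ^ 68 := by
  refine le_trans (le_of_eq (by norm_num)) (Lo.mul_ip_le (a := 8) (b := P ^ 69) le_rfl ?_)
  have : 8 ≤ P ^ 68 := h.trans (Nat.le_self_pow (by norm_num) P)
  rw [pow_succ]; nlinarith

theorem avg_tv {G : Type} [AddCommGroup G] [Fintype G] [DecidableEq G] (π : (d → ℤ) →+ G)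
    {σ μ : (d → ℤ) → ℝ} (hσ : PrZ σ) (hμ : PrZ μ) {S T : Finset (d → ℤ)} {ε : ℝ}
    (h : ∑' t, σ t * tvZ μ t ≤ ε) (e : ε ≤ 1 / 8) (s : 1 - 2 * ε ≤ ∑ x ∈ S, σ x)
    (t : 1 - 2 * ε ≤ ∑ x ∈ T, μ x) :
    Ex (pu π S (tr S σ)) (Lo.tv (pu π T (tr T μ))) ≤ 256 * ε := by
  have su : Summable fun t => σ t * tvZ μ t := .of_nonneg_of_le
    (fun t => mul_nonneg (hσ.1 t) (tvZ_nonneg _ _))
    (fun t => mul_le_mul_of_nonneg_left (hμ.tv_le t) (hσ.1 t)) (hσ.2.summable.mul_right 2)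
  have a := su.sum_le_tsum S fun t _ => mul_nonneg (hσ.1 t) (tvZ_nonneg _ _)
  have a0 := sum_nonneg fun t (_ : t ∈ S) => mul_nonneg (hσ.1 t) (tvZ_nonneg μ t)
  rw [sum_pu]
  calc _ ≤ ∑ y ∈ S, (4 / 3 * (σ y * tvZ μ y) + tr S σ y * (8 * ε)) := sum_le_sum fun y _ => by
        have := mul_le_mul_of_nonneg_right (tr_le hσ (S := S) (by linarith) y) (tvZ_nonneg μ y)
        have := mul_le_mul_of_nonneg_left ((tv_pu (π := π) hμ (S := T) (by linarith) y).trans
          (show _ ≤ tvZ μ y + 8 * ε by linarith)) (tr_nonneg hσ S y)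
        linarith
    _ ≤ _ := by
        rw [sum_add_distrib, ← mul_sum, ← sum_mul, sum_tr (by linarith)]
        linarith

/-- **the relative Kelley–Meka step on the lattice** -/
theorem kmZ_of (H : ∀ (G : Type) [AddCommGroup G] [Fintype G], ST12 G ∧ ST3 G)
    {my mb ma mv mt σ g ν : (d → ℤ) → ℝ} {P j Q : ℕ} {γ : ℝ} (hy : PrZ my) (hb : PrZ mb)
    (ha : PrZ ma) (hv : PrZ mv) (ht : PrZ mt) (hσ : PrZ σ) (Sv : Set (d → ℤ))
    (dy : ∀ v ∈ Sv, ∀ y, my y ≤ 3 / 2 * ma (y + v)) (dt : ∀ v ∈ Sv, ∀ t, mb (t + v) ≤ 3 * mt t)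
    (hS : ∑' v, Svᶜ.indicator mv v ≤ 1 / 2 ^ P ^ 69) (ν0 : ∀ x, 0 ≤ ν x) (g0 : ∀ x, 0 ≤ g x)
    (hg : ∀ x, g x ≤ 2 ^ P * ν x) (hj : 3 ≤ j) (hQ : 2 ^ j ≤ Q) (hP : Q ≤ P) (γ1 : 1 / 2 ^ P ≤ γ)
    (γ2 : γ ≤ 2 ^ P) (hγ : ∃ s, γ ^ (Q * Q) < s ∧ HasSum (gw my mb g Q Q) s)
    (l1 : LFZ my mb ν (P ^ 7) (1 / 2 ^ P ^ 69)) (l2 : LFZ ma mt ν (P ^ 7) (1 / 2 ^ P ^ 69))
    (t1 : ∑' t, σ t * tvZ mv t ≤ 1 / 2 ^ P ^ 69) (t2 : ∑' t, σ t * tvZ ma t ≤ 1 / 2 ^ P ^ 69)
    (t3 : ∑' t, mv t * tvZ ma t ≤ 1 / 2 ^ P ^ 69) :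
    ∃ (n : ℕ) (ξ : Fin n → d → ℝ) (ρ : (d → ℤ) → ℝ), n ≤ P ^ 69 ∧ PrZ ρ ∧
      (Function.support ρ).Finite ∧ (∀ p, ρ p ≤ 2 ^ P ^ 69 * cvZ ma mv mb p) ∧
      ∀ w, ∑ l, |ξ l ⬝ᵥ zc w - round (ξ l ⬝ᵥ zc w)| ≤ 1 / 2 ^ P ^ 69 →
        tvZ σ w ≤ 1 / 2 ^ P ^ 69 → tvZ ma w ≤ 1 / 2 ^ P ^ 69 →
          (1 - 11 / 2 ^ j) * γ ≤ ∑' p, ρ p * g (p + w) := by
  classical
  have p8 : 8 ≤ P := (Nat.pow_le_pow_right (by norm_num) hj : 2 ^ 3 ≤ 2 ^ j).trans (hQ.trans hP)
  have ε1 := two_pow_69 p8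
  have ε2 : (1 : ℝ) / 2 ^ P ^ 68 ≤ 1 := (Lo.ip_le (Nat.zero_le _)).trans_eq (by norm_num)
  have ε0 : (0 : ℝ) < 1 / 2 ^ P ^ 69 := by positivity
  set ε : ℝ := 1 / 2 ^ P ^ 69
  have x1 : Exh (box d) := by simpa using exh_box (d := d) le_rfl
  have x2 := exh_box (d := d) one_le_two
  have ms : ∀ {μ : (d → ℤ) → ℝ} {S : ℕ → Finset (d → ℤ)}, PrZ μ → Exh S →
      ∀ᶠ R in atTop, 1 - ε < ∑ x ∈ S R, μ x := fun h x =>
    (x.tendsto h.2).eventually (lt_mem_nhds (by linarith))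
  obtain ⟨s, hs, hγ⟩ := hγ
  obtain ⟨R, ⟨my1, mb1, ma1, mv0, mt1, σ1⟩, L1, L2, gc⟩ := (((ms hy x1).and ((ms hb x1).and
    ((ms ha x2).and ((ms hv x1).and ((ms ht x2).and (ms hσ x1)))))).and
    ((l1.ev x1 x1 hy hb ν0 (show ε < 256 * ε by linarith)).and
    ((l2.ev x2 x2 ha ht ν0 (show ε < 256 * ε by linarith)).and
    (((x1.bx x1 Q Q).tendsto hγ).eventually (lt_mem_nhds hs))))).exists
  set V := (box d R).filter (· ∈ Sv) with hV
  have mv1 : 1 - 2 * ε ≤ ∑ x ∈ V, mv x := by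
    have a := (hv.2.summable.indicator Svᶜ).sum_le_tsum (box d R) fun x _ =>
      Set.indicator_nonneg (fun x _ => hv.1 x) x
    have b : ∑ x ∈ box d R, mv x = ∑ x ∈ V, mv x + ∑ x ∈ box d R, Svᶜ.indicator mv x := by
      rw [hV, sum_filter, ← sum_add_distrib]
      exact sum_congr rfl fun x _ => by by_cases c : x ∈ Sv <;> simp [c]
    linarith
  have VB : ∀ {x}, x ∈ V → x ∈ box d R := fun h => (mem_filter.1 h).1
  let π := Lo.pz d (2 * (6 * R) + 1)
  have inj : Set.InjOn π (box d (6 * R)) := inj_box _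
  have sub : ∀ {a b : ℕ}, a ≤ b → box d a ⊆ box d b := fun h x hx =>
    mem_box.2 fun i => by have := mem_box.1 hx i; omega
  have ad : ∀ {a b c : ℕ} {x y : d → ℤ}, x ∈ box d a → y ∈ box d b → a + b ≤ c →
      x + y ∈ box d c ∧ x - y ∈ box d c := fun hx hy h => by
    refine ⟨mem_box.2 fun i => ?_, mem_box.2 fun i => ?_⟩ <;> have := mem_box.1 hx i <;>
      have := mem_box.1 hy i <;> simp only [Pi.add_apply, Pi.sub_apply] <;> omega
  have ap : ∀ (f : (d → ℤ) → ℝ) {c : ℕ}, c + c ≤ 6 * R → ∀ a ∈ box d c, ∀ b ∈ box d c,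
      pu π (box d (6 * R)) f (π a + π b) = f (a + b) := fun f c h a ha b hb => by
    rw [← map_add, pu_apply inj (ad ha hb h).1]
  have s1 : box d R ⊆ box d (6 * R) := sub (by omega)
  have s2 : box d (2 * R) ⊆ box d (6 * R) := sub (by omega)
  have dy' : ∀ y, pu π (box d R) (tr (box d R) my) y ≤ 2 * Ex (pu π V (tr V mv)) fun v =>
      pu π (box d (2 * R)) (tr (box d (2 * R)) ma) (y + v) := fun y => by
    by_cases c : pu π (box d R) (tr (box d R) my) y = 0
    · rw [c]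
      exact mul_nonneg zero_le_two ((pr_pu hv (by linarith)).nonneg fun _ =>
        pu_nonneg (tr_nonneg ha _) _)
    obtain ⟨y, hy', rfl⟩ := pu_ne c
    rw [pu_tr inj s1 (s1 hy'), ← Ex_mul]
    refine le_trans (le_of_eq ((pr_pu (π := π) (S := V) hv (by linarith)).const _).symm) ?_
    rw [sum_pu, sum_pu]
    refine sum_le_sum fun v hv' => mul_le_mul_of_nonneg_left ?_ (tr_nonneg hv _ _)
    have k := (ad hy' (VB hv') (show R + R ≤ 2 * R by omega)).1
    rw [← map_add, pu_tr inj s2 (s2 k)]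
    linarith [tr_le hy (S := box d R) (by linarith) y, dy v (mem_filter.1 hv').2 y,
      le_tr ha (by linarith) k]
  have dt' : ∀ v t, pu π V (tr V mv) v ≠ 0 → pu π (box d R) (tr (box d R) mb) (t + v) ≤
      4 * pu π (box d (2 * R)) (tr (box d (2 * R)) mt) t := fun v t c => by
    obtain ⟨v, hv', rfl⟩ := pu_ne c
    by_cases c : pu π (box d R) (tr (box d R) mb) (t + π v) = 0
    · rw [c]; exact mul_nonneg (by norm_num) (pu_nonneg (tr_nonneg ht _) _)
    obtain ⟨x, hx, e⟩ := pu_ne c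
    have k := (ad hx (VB hv') (show R + R ≤ 2 * R by omega)).2
    rw [← e, show t = π (x - v) by rw [map_sub, e, add_sub_cancel_right], pu_tr inj s1 (s1 hx),
      pu_tr inj s2 (s2 k)]
    have := dt v (mem_filter.1 hv').2 (x - v)
    rw [sub_add_cancel] at this
    linarith [tr_le hb (S := box d R) (by linarith) x, le_tr ht (by linarith) k]
  have hg' : ∀ x, pu π (box d (6 * R)) g x ≤ 2 ^ P * pu π (box d (6 * R)) ν x := fun x => by
    rw [pu, pu, mul_sum]
    exact sum_le_sum fun y _ => by split_ifs; exacts [hg y, by simp]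
  have gc' : γ ^ (Q * Q) ≤ GC (pu π (box d R) (tr (box d R) my)) (pu π (box d R) (tr (box d R) mb))
      (ak (pu π (box d (6 * R)) g)) Q Q := by
    rw [GC_pu (ap g (by omega)), le_div_iff₀ (mul_pos (pow_pos (by linarith) _)
      (pow_pos (by linarith) _))]
    refine le_trans (mul_le_of_le_one_right (pow_nonneg (le_trans (by positivity) γ1) _) ?_) gc.le
    exact mul_le_one₀ (pow_le_one₀ (by linarith) (hy.le_one _)) (pow_nonneg (by linarith) _)
      (pow_le_one₀ (by linarith) (hb.le_one _))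
  obtain ⟨Λ, ρ, hΛ, hρ, ρ1, ρ2⟩ := km_of (H _).1 (H _).2 (γ := γ)
    (g := pu π (box d (6 * R)) g) (ν := pu π (box d (6 * R)) ν)
    (pr_pu (π := π) (S := box d R) hy (by linarith)) (pr_pu (π := π) (S := box d R) hb (by linarith))
    (pr_pu (π := π) (S := box d (2 * R)) ha (by linarith)) (pr_pu (π := π) (S := V) hv (by linarith))
    (pr_pu (π := π) (S := box d (2 * R)) ht (by linarith))
    (pr_pu (π := π) (S := box d R) hσ (by linarith)) dy' dt'
    (pu_nonneg ν0) (pu_nonneg g0) hg' hj hQ hP γ1 γ2 gc'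
    ((L1 _ π _ (ap ν (by omega))).imp_right (·.trans ε1))
    ((L2 _ π _ (ap ν (by omega))).imp_right (·.trans ε1))
    ((avg_tv π hσ hv t1 (by linarith) (by linarith) mv1).trans ε1)
    ((avg_tv π hσ ha t2 (by linarith) (by linarith) (by linarith)).trans ε1)
    ((avg_tv π hv ha t3 (by linarith) mv1 (by linarith)).trans ε1)
  choose ξ hξ using Lo.exists_xi π
  have s4 : box d (4 * R) ⊆ box d (6 * R) := sub (by omega)
  have su : ∀ x, ρ x ≠ 0 → ∃ p ∈ box d (4 * R), π p = x := fun x c => by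
    by_contra k
    refine c (le_antisymm ((ρ1 x).trans_eq ?_) (hρ.nn x))
    rw [cv, sum_pu, sum_eq_zero fun v hv' => ?_, mul_zero]
    rw [sum_pu, sum_eq_zero fun y hy' => ?_, mul_zero]
    by_contra c
    obtain ⟨u, hu, e⟩ := pu_ne (right_ne_zero_of_mul c)
    exact k ⟨u - v + y, (ad (ad hu (VB hv') le_rfl).2 hy' (by omega)).1, by
      rw [map_add, map_sub, e]; abel⟩
  have sm : ∀ F : (d → ZMod (2 * (6 * R) + 1)) → ℝ,
      Ex ρ F = ∑ p ∈ box d (4 * R), ρ (π p) * F (π p) := fun F => by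
    rw [← sum_pu]; congr 1; funext x
    by_cases c : ∃ p ∈ box d (4 * R), π p = x
    · obtain ⟨p, hp, rfl⟩ := c
      rw [pu_apply (inj.mono s4) hp]
    · rw [not_not.1 (_root_.mt (su x) c), not_not.1 (_root_.mt pu_ne c)]
  have c0 : ∀ p, 0 ≤ cvZ ma mv mb p := fun p => tsum_nonneg fun v => mul_nonneg (hv.1 v)
    (tsum_nonneg fun x => mul_nonneg (hb.1 x) (ha.1 _))
  refine ⟨#Λ, fun l => ξ (Λ.equivFin.symm l), fun p => if p ∈ box d (4 * R) then ρ (π p) else 0,
    hΛ.trans (Nat.pow_le_pow_right (by omega) (by norm_num)), ⟨fun p => ?_, ?_⟩,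
    (box d (4 * R)).finite_toSet.subset fun p c => by_contra fun k => c (if_neg k), fun p => ?_,
    fun w w1 w2 w3 => ?_⟩
  · beta_reduce; split_ifs; exacts [hρ.nn _, le_rfl]
  · have := sm fun _ => 1
    simp only [hρ.const, mul_one] at this
    rw [this, ← sum_congr rfl fun p (hp : p ∈ box d (4 * R)) => if_pos (e := (0 : ℝ)) hp]
    exact hasSum_sum_of_ne_finset_zero fun p hp => if_neg hp
  · beta_reduce
    split_ifs with hp
    swap; · exact mul_nonneg (by positivity) (c0 p)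
    refine (ρ1 _).trans (le_trans (mul_le_mul_of_nonneg_left (show _ ≤ 256 * cvZ ma mv mb p from ?_)
      (by positivity)) ?_)
    · have sx : ∀ v, Summable fun x => mb x * ma (p + v - x) := fun v => .of_nonneg_of_le
        (fun x => mul_nonneg (hb.1 x) (ha.1 _))
        (fun x => mul_le_of_le_one_right (hb.1 x) (ha.le_one' _)) hb.2.summable
      have sv : Summable fun v => mv v * ∑' x, mb x * ma (p + v - x) := .of_nonneg_of_le
        (fun v => mul_nonneg (hv.1 v) (tsum_nonneg fun x => mul_nonneg (hb.1 x) (ha.1 _)))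
        (fun v => mul_le_of_le_one_right (hv.1 v) (hasSum_le
          (fun x => mul_le_of_le_one_right (hb.1 x) (ha.le_one' _)) (sx v).hasSum hb.2))
        hv.2.summable
      have k : ∀ v ∈ V, (Ex (pu π (box d R) (tr (box d R) mb)) fun x =>
          pu π (box d (2 * R)) (tr (box d (2 * R)) ma) (π p + π v - x)) ≤
            16 / 9 * ∑' x, mb x * ma (p + v - x) := fun v hv' => by
        refine le_trans ?_ (mul_le_mul_of_nonneg_left ((sx v).sum_le_tsum (box d R) fun x _ =>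
          mul_nonneg (hb.1 x) (ha.1 _)) (by norm_num))
        rw [sum_pu, mul_sum]
        refine sum_le_sum fun x hx => ?_
        rw [← map_add, ← map_sub, pu_tr inj s2 (ad (ad hp (VB hv') le_rfl).1 hx (by omega)).2]
        exact (mul_le_mul (tr_le hb (by linarith) x) (tr_le ha (by linarith) _) (tr_nonneg ha _ _)
          (mul_nonneg (by norm_num) (hb.1 x))).trans_eq (by ring)
      refine le_trans ?_ (mul_le_mul_of_nonneg_left (sv.sum_le_tsum V fun v _ => mul_nonneg (hv.1 v)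
        (tsum_nonneg fun x => mul_nonneg (hb.1 x) (ha.1 _))) (by norm_num))
      rw [cv, sum_pu, mul_sum]
      refine sum_le_sum fun v hv' => (mul_le_mul (tr_le hv (by linarith) v) (k v hv')
        ((pr_pu hb (by linarith)).nonneg fun _ => pu_nonneg (tr_nonneg ha _) _)
        (mul_nonneg (by norm_num) (hv.1 v))).trans ?_
      have : 0 ≤ mv v * ∑' x, mb x * ma (p + v - x) :=
        mul_nonneg (hv.1 v) (tsum_nonneg fun x => mul_nonneg (hb.1 x) (ha.1 _))
      nlinarith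
    · rw [← mul_assoc]
      refine mul_le_mul_of_nonneg_right ?_ (c0 p)
      rw [mul_one_div, div_le_div_iff₀ (by positivity) (by positivity)] at ε1
      linarith
  · have wb : w ∈ box d (2 * R) := by
      by_contra c
      have := tv_tr hσ (S := box d R) (by linarith) w (box d R)
      rw [sum_congr rfl fun y hy' => show _ = tr (box d R) σ y by
        rw [tr, if_neg fun k => c (by simpa using (ad k hy' (show R + R ≤ 2 * R by omega)).2),
          zero_sub, abs_neg, abs_of_nonneg (tr_nonneg hσ _ y)], sum_tr (by linarith)] at this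
      linarith
    have := ρ2 (π w) (by
      rw [← Λ.sum_coe_sort, ← Λ.equivFin.symm.sum_comp]
      refine (sum_le_sum fun l _ => hξ _ w).trans ?_
      rw [← mul_sum]; linarith)
      ((tv_pu hσ (by linarith) w).trans (by linarith))
      ((tv_pu ha (by linarith) w).trans (by linarith))
    beta_reduce
    rw [tsum_eq_sum (s := box d (4 * R)) fun p hp => by rw [if_neg hp, zero_mul]]
    rw [sm] at this
    refine this.trans_eq (sum_congr rfl fun p hp => ?_)
    rw [if_pos hp, ← map_add, pu_apply inj (ad hp wb (by omega)).1]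

end Crest.Agent.N49.Km
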